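import Vale.Agent.P370.H305.Blocks
import Vale.Agent.P370.H890.Orth

/-!
P370, line Q, half (II): intermediate statements of the proof of `ContCoreStmt` from the blocks.
-/

namespace Vale.Agent.P370.H305

open MeasureTheory Finset
open Vale.Agent.P363.Stmt Vale.Agent.P363.R.H10 Vale.Agent.P370.H115
open Vale.Agent.P363.H849 (H1 ip)
open Vale.Agent.P370.H624 (Shell Closed Filled)
open Vale.Agent.P370.H98 (uS uT gUS gUT)
open Vale.Agent.P370.H758 (core)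

noncomputable section

/-- the light nuclei realise the programmed potential (from `LatticeStmt`, `P2Stmt`, `WnStmt`,
`DispuStmt`, `KapStmt`, `PairStmt`) -/
def LightStmt (phiJ : ℕ → ℝ → ℝ) : Prop := ∃ K : ℕ, ∀ (J m t : ℕ) (S τ : ℝ) (T : ℕ → ℕ → ℝ)
    (y : (Fin 3 → ℤ) → R3),
  3 ≤ J → 1 ≤ m → m ≤ J + 1 → 0 ≤ S → 0 ≤ τ → (∀ a b, |T a b| ≤ τ) → 1 ≤ t →
  (∀ k ∈ H198.box (t ^ 4), y k ≠ 0 ∧
    ‖y k - (H198.pt (1 / (t : ℝ)) k - (1 / (4 * Real.pi * (t : ℝ) ^ 3)) •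
      (gUS (J + 1) m S (H198.pt (1 / (t : ℝ)) k) + gUT (J + 1) m T (H198.pt (1 / (t : ℝ)) k)))‖ ≤
        1 / (t : ℝ) ^ 13) →
  (∀ f ∈ Shell J, ∀ g ∈ Shell J,
    |lightF (H198.box (t ^ 4)) y f.1.1 g.1.1 + H198.kap t * ip f g
        - 2 * Real.pi / 3 * (t : ℝ) ^ 3 * (∫ x, ‖x‖ ^ 2 * (f.1.1 x * g.1.1 x))
        - ∫ x, (uS (J + 1) m S x + uT (J + 1) m T x) * (f.1.1 x * g.1.1 x)| ≤
      ((J : ℝ) + 2) ^ K * (1 + S + τ) ^ 2 / Real.sqrt t * (nrm f * nrm g)) ∧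
  |(∑ k ∈ H198.box (t ^ 4), phiJ (J + 1) ‖y k‖) - H198.kap t
      + 2 * Real.pi / 3 * (t : ℝ) ^ 3 *
        (((J : ℝ) + 1) ^ 2 * (J + 2) * (2 * J + 3) / 2)
      + ∫ x, uT (J + 1) m T x * wn (J + 1) x| ≤
    ((J : ℝ) + 2) ^ K * (1 + S + τ) ^ 2 / Real.sqrt t

/-- the hopping matrix elements of the rings -/
def UTStmt : Prop := ∀ (n m p q : ℕ) (T : ℕ → ℕ → ℝ) (τ : ℝ), 2 ≤ n → 2 ≤ m → p < m → q < m →
  (∀ a b, |T a b| ≤ τ) →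
  |(∫ x, uT n m T x * (rC n m p x * rC n m q x)) +
      (if p = q then 0 else T (min p q) (max p q))| ≤
    1600000 * (m : ℝ) ^ 2 * (n : ℝ) ^ 6 * τ * Real.exp (-((n - 1) / (8 * (m : ℝ) ^ 4)))

/-- overlaps of the rings -/
def OvStmt : Prop := ∀ (n m i j : ℕ), 2 ≤ n → 2 ≤ m → i < m → j < m →
  |(∫ x, rC n m i x * rC n m j x) - if i = j then 1 else 0| ≤
    2 * Real.exp (-((n - 1) / (m : ℝ) ^ 2)) ∧ ∫ x, rC n m i x * rS n m j x = 0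

/-- the hopping potential in the radial density is small -/
def UTwStmt : Prop := ∃ K : ℕ, ∀ (n m : ℕ) (T : ℕ → ℕ → ℝ) (τ : ℝ), 2 ≤ n → 2 ≤ m →
  (∀ a b, |T a b| ≤ τ) →
  |∫ x, uT n m T x * wn n x| ≤ (n : ℝ) ^ K * (m : ℝ) ^ 2 * τ * Real.exp (-((n - 1) / (m : ℝ) ^ 2))

/-- the selection potential is `S` times the rank-two forms -/
def USStmt : Prop := ∀ (J m : ℕ) (S : ℝ) (C R : Fin m → H1), 1 ≤ J →
  (∀ i, (C i).1.1 = rC (J + 1) m i) → (∀ i, (R i).1.1 = rS (J + 1) m i) →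
  ∀ f ∈ Shell J, ∀ g ∈ Shell J,
    ∫ x, uS (J + 1) m S x * (f.1.1 x * g.1.1 x) = S * H890.sel ip C R f g

/-- the programmed potential of `Iface` is that of `H98`, also the gradients -/
def UDStmt : Prop := ∀ (n m : ℕ) (σ : ℝ) (τ : ℕ → ℕ → ℝ), 4 ≤ n →
  (∀ x, uD n m σ τ x = uS n m (σ * kap n) x + uT n m (fun a b => τ a b * Mm n m a b) x) ∧
  ∀ x, gradient (uD n m σ τ) x =
    gUS n m (σ * kap n) x + gUT n m (fun a b => τ a b * Mm n m a b) x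

/-- the Heisenberg form of a multigraph by multiplicities -/
def FormStmt : Prop := ∀ (D : ℕ) (E : List (ℕ × ℕ)), (∀ e ∈ E, e.1 < e.2 ∧ e.2 < D) →
  (∀ χ : (Fin D → Bool) → ℝ, Heis.form D E χ = ∑ a : Fin D, ∑ b : Fin D,
    if a < b then (E.count ((a : ℕ), (b : ℕ)) : ℝ) * Heis.pairForm a b χ else 0) ∧
  ∑ a : Fin D, ∑ b : Fin D, (if a < b then (E.count ((a : ℕ), (b : ℕ)) : ℝ) else 0) = E.length

/-- the effective form of block M1 is the Heisenberg form -/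
def HeffStmt : Prop := ∀ (D : ℕ) (E : List (ℕ × ℕ)), (∀ e ∈ E, e.1 < e.2 ∧ e.2 < D) →
  ∀ (t : Fin D → Fin D → ℝ) (g : Fin D → Fin D → Fin D → Fin D → ℝ) (s ε : ℝ), 0 ≤ ε →
  (∀ a b, t a b = t b a) → (∀ a b, H600.Jm g a b = H600.Jm g b a) →
  (∀ a b : Fin D, a < b →
    |2 * t a b ^ 2 / H600.Del g a b - s * E.count ((a : ℕ), (b : ℕ))| ≤ ε) →
  ∀ χ : (Fin D → Bool) → ℝ,
    |H600.heff t g χ - s * (Heis.form D E χ - 2 * E.length * Heis.nsq χ)| ≤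
      (D : ℝ) ^ 2 * ε * Heis.nsq χ

end

end Vale.Agent.P370.H305
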