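import Vale.Agent.P370.H305.CompDefs

/-!
P370, line Q, half (II): the numbers of the final estimate and the exact statement of the arithmetic
part.
-/

namespace Vale.Agent.P370.H305

noncomputable section

/-- remainder of the lattice -/
def epL (K J : ℕ) (S τ : ℝ) (t : ℕ) : ℝ := ((J : ℝ) + 2) ^ K * (1 + S + τ) ^ 2 / Real.sqrt t

/-- defect of the orthonormalisation -/
def epO (J m : ℕ) : ℝ := 8 * m * etaR J m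

/-- gap of the selection -/
def gapS (K J : ℕ) (S τ : ℝ) (t : ℕ) : ℝ :=
  S - 2 * ((J : ℝ) + 2) ^ K - ((J : ℝ) + 2) ^ K * τ - epL K J S τ t

/-- error in the ring block -/
def eta1 (K J m : ℕ) (S τ : ℝ) (t : ℕ) : ℝ :=
  S * (2 * (2 * epO J m + etaR J m) + m * (2 * epO J m + etaR J m) ^ 2) +
    (mixR J m τ + 3 * epO J m * (((J : ℝ) + 2) ^ K * τ)) + epL K J S τ t

/-- bound of the entries -/
def tauP (K J m : ℕ) (S τ : ℝ) (t : ℕ) : ℝ :=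
  ((J : ℝ) + 2) ^ K * τ + epL K J S τ t + τ + eta1 K J m S τ t

/-- bound of the form outside of the penalty -/
def bS (K J m : ℕ) (S τ : ℝ) (t : ℕ) : ℝ :=
  m * ((J + 1) ^ 2 : ℕ) * tauP K J m S τ t +
    (m : ℝ) ^ 2 * (((J + 1) ^ 2 : ℕ) : ℝ) ^ 2 * ((J : ℝ) + 2) ^ K / 2 + (m : ℝ) ^ 2

/-- positivity constant of the charge matrix -/
def delR (J m : ℕ) : ℝ := 1 / 200000000 / (m * ((J + 1 : ℕ) : ℝ) ^ 2)

/-- bound of the small two-electron integrals -/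
def kapR (J m : ℕ) : ℝ := 15 * (m : ℝ) ^ 4 * ((J + 1 : ℕ) : ℝ) ^ (-(13 / 6) : ℝ)

/-- number of the light nuclei -/
def cardL (t : ℕ) : ℕ := (2 * t ^ 4 + 1) ^ 3

/-- The inequalities used by the final estimate: `B` = base, `s` = scale. -/
structure Nums (K p J m t Zc : ℕ) (B : ℕ) (S τ s : ℝ) : Prop where
  J3 : 3 ≤ J
  mJ : m ≤ J + 1
  nbig : 65536 * m ^ 4 ≤ J + 1
  t1 : 1 ≤ t
  eta : 16 * m * etaR J m ≤ 1
  small_t : (m : ℝ) ^ 2 * τ ≤ delR J m / 2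
  sel : 4 * bS K J m S τ t ≤ gapS K J S τ t
  mott : H600.mottErr2 m (delR J m) (kapR J m) τ (4 * B * s) ≤ s / 64
  pert : errP m (eta1 K J m S τ t) (9 * epO J m * ((J : ℝ) + 2) ^ K) ≤ s / 64
  selE : 2 * bS K J m S τ t ^ 2 / gapS K J S τ t ≤ s / 64
  offE : m * (epL K J S τ t + ((J + 1 : ℕ) : ℝ) ^ K * (m : ℝ) ^ 2 * τ *
    Real.exp (-((((J + 1 : ℕ) : ℝ) - 1) / (m : ℝ) ^ 2))) ≤ s / 64
  heavy : (J + m + cardL t + 3) ^ p ≤ Zc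
  heavyE : ((J + m + cardL t + 3 : ℕ) : ℝ) ^ p / Zc ≤ s / 64

/-- **NUM** -/
def NumStmt : Prop := ∀ K p k₀ : ℕ, ∃ E : Expo, k₀ ≤ E.kn ∧ E.ks + 1 ≤ E.kZ ∧
  ∀ (B J m : ℕ) (S τ Δ : ℝ), 3 ≤ B → J + 1 = B ^ E.kn → 2 ≤ m → m ≤ B →
    (B : ℝ) ^ E.kS ≤ S → S ≤ 2 * (B : ℝ) ^ E.kS →
    0 ≤ τ → 0 ≤ Δ → Δ ≤ 3000 * ((J + 1 : ℕ) : ℝ) ^ (-(13 / 7) : ℝ) →
    τ ^ 2 ≤ B * Δ * (1 / (B : ℝ) ^ E.ks) →
    Nums K p J m (B ^ E.kt) (B ^ E.kZ) B S τ (1 / (B : ℝ) ^ E.ks)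

end

end Vale.Agent.P370.H305
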