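import Vale.Agent.P370.HeisDefs
import Vale.Agent.P370.H115.RingDefs
import Vale.Agent.P370.H198.LatDefs

/-!
P370, line Q, second half (HEIS → continuum): the interface between the analysis
(`ContCoreStmt`) and the polynomial-time program (`ProgStmt`); `toCont_of` glues the two.
All lengths are in the scaled units (heavy nucleus `Zc`, physical positions = scaled / `Zc`).
-/

namespace Vale.Agent.P370.H305

open MeasureTheory Finset
open Vale.Agent.P363.Stmt Vale.Agent.P363.R.H10 Vale.Agent.P370.H115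
open Vale.Agent.P370.H198 (pt)

noncomputable section

/-- Exponents of the parameters, all of them powers of `B = #edges + 2`: shell `n = B ^ kn`, scale of
the couplings `s = B ^ (-ks)`, selection strength `B ^ kS`, lattice parameter `t = B ^ kt` (mesh
`1 / t`, box `|k i| ≤ t ^ 4`, positions rounded to `t ^ (-13)`), heavy charge `B ^ kZ`. -/
structure Expo where
  kn : ℕ
  ks : ℕ
  kS : ℕ
  kt : ℕ
  kZ : ℕ

/-- the base of all parameters -/
def base (E : List (ℕ × ℕ)) : ℕ := E.length + 2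

/-- the charge of the ring orbital `i` among `m` -/
def rho (n m i : ℕ) (x : R3) : ℝ := rC n m i x ^ 2

/-- the charge matrix `D_ab = (C_a C_a | C_b C_b)` -/
def Dm (n m a b : ℕ) : ℝ := DD (rho n m a) (rho n m b)

/-- `Δ_ab = D_aa - D_ab` -/
def Dl (n m a b : ℕ) : ℝ := Dm n m a a - Dm n m a b

/-- `κ = ∫ (C² - S²) C²` -/
def kap (n : ℕ) : ℝ := ∫ x, (ringC n 0 x ^ 2 - ringS n 0 x ^ 2) * ringC n 0 x ^ 2

/-- `M_ab = ∫ C_a² C_b²` -/
def Mm (n m a b : ℕ) : ℝ := ∫ x, rho n m a x * rho n m b x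

/-- the designed one-body potential (selection and hopping) -/
def uD (n m : ℕ) (σ : ℝ) (τ : ℕ → ℕ → ℝ) (x : R3) : ℝ :=
  -(σ * ∑ i ∈ range m, (rC n m i x ^ 2 - rS n m i x ^ 2)) -
    ∑ i ∈ range m, ∑ j ∈ range m, if i < j then τ i j * (rC n m i x * rC n m j x) else 0

/-- the displaced lattice points: `y - (t⁻³ / 4π) ∇u(y)` -/
def dpt (t : ℝ) (u : R3 → ℝ) (k : Fin 3 → ℤ) : R3 :=
  pt (1 / t) k - (1 / (4 * Real.pi * t ^ 3)) • gradient u (pt (1 / t) k)

/-- the data computed by the machine: selection strength, hoppings, positions of the light nuclei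
(scaled), with their tolerances -/
structure Design (K : Expo) (D : ℕ) (E : List (ℕ × ℕ)) where
  σ : ℝ
  τ : ℕ → ℕ → ℝ
  y : (Fin 3 → ℤ) → R3
  hσ : (base E : ℝ) ^ K.kS ≤ σ * kap (base E ^ K.kn) ∧
    σ * kap (base E ^ K.kn) ≤ 2 * (base E : ℝ) ^ K.kS
  hτ : ∀ a b, a < b → b < D →
    |2 * (τ a b * Mm (base E ^ K.kn) D a b) ^ 2 / Dl (base E ^ K.kn) D a b -
      E.count (a, b) / (base E : ℝ) ^ K.ks| ≤ 1 / (32 * (base E : ℝ) ^ 2 * (base E : ℝ) ^ K.ks)
  hy : ∀ k ∈ H198.box ((base E ^ K.kt) ^ 4),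
    ‖y k - dpt ((base E : ℝ) ^ K.kt) (uD (base E ^ K.kn) D σ τ) k‖ ≤
      1 / ((base E : ℝ) ^ K.kt) ^ 13
  hy0 : ∀ k ∈ H198.box ((base E ^ K.kt) ^ 4), y k ≠ 0

/-- the first-order offset; `coreE n` = Coulomb energy of the closed shells `< n`, `fE n` = core mean
field on the `l = n - 1` multiplet, `phiC n r` = potential of the closed shell density (total charge
`2 ∑_{j<n} j²`), `phiJ n r` = potential of the normalised density `∝ r^(2n-2) e^(-2r/n)`. -/
def off (coreE fE : ℕ → ℝ) (phiC phiJ : ℕ → ℝ → ℝ) {K : Expo} {D : ℕ} {E : List (ℕ × ℕ)}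
    (d : Design K D E) : ℝ :=
  coreE (base E ^ K.kn) + D * fE (base E ^ K.kn)
    - (∑ k ∈ H198.box ((base E ^ K.kt) ^ 4),
        (phiC (base E ^ K.kn) ‖d.y k‖ + D * phiJ (base E ^ K.kn) ‖d.y k‖))
    - D * (d.σ * kap (base E ^ K.kn))
    + (1 / 2) * ∑ a ∈ range D, ∑ b ∈ (range D).erase a, Dm (base E ^ K.kn) D a b

/-- number of the electrons -/
def nel (n D : ℕ) : ℕ := 2 * (∑ j ∈ range n, j ^ 2) + D

/-- unperturbed energy (units `Zc²`) -/
def e0 (n D : ℕ) : ℝ := -((n : ℝ) - 1) - D / (2 * (n : ℝ) ^ 2)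

/-- the attraction by the nuclei `(Z, R)` is that of the heavy nucleus and of the light nuclei -/
def SameNuclei {M : ℕ} (Z : Fin M → ℕ) (R : Fin M → R3) (Zc : ℕ) (L : Finset (Fin 3 → ℤ))
    (y : (Fin 3 → ℤ) → R3) : Prop :=
  ∀ x : R3, ∑ j, (Z j : ℝ) / ‖x - R j‖ = Zc / ‖x‖ + ∑ k ∈ L, 1 / ‖x - (1 / (Zc : ℝ)) • y k‖

/-- energy of the design at the value `lam` of the Heisenberg form -/
def enB (K : Expo) (D : ℕ) (E : List (ℕ × ℕ)) (o lam : ℝ) : ℝ :=
  ((base E : ℝ) ^ K.kZ) ^ 2 * e0 (base E ^ K.kn) D +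
    (base E : ℝ) ^ K.kZ * (o + (lam - 2 * E.length) / (base E : ℝ) ^ K.ks)

/-- **The analytic core of the second half** (for some exponents, with `kn` as large as wanted). -/
def ContCoreStmt (coreE fE : ℕ → ℝ) (phiC phiJ : ℕ → ℝ → ℝ) : Prop :=
  ∀ k₀ : ℕ, ∃ K : Expo, k₀ ≤ K.kn ∧ K.ks + 1 ≤ K.kZ ∧ ∀ (D : ℕ) (E : List (ℕ × ℕ)) (k : ℕ), Heis.Good (D, E, k) →
    ∀ (d : Design K D E) {M : ℕ} (Z : Fin M → ℕ) (R : Fin M → R3),
      SameNuclei Z R (base E ^ K.kZ) (H198.box ((base E ^ K.kt) ^ 4)) d.y →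
      (∀ lam : ℝ, (∃ χ : (Fin D → Bool) → ℝ, 0 < Heis.nsq χ ∧
          Heis.form D E χ ≤ lam * Heis.nsq χ) →
        groundEnergy (nel (base E ^ K.kn) D) Z R ≤
          enB K D E (off coreE fE phiC phiJ d) (lam + 1 / 8)) ∧
      (∀ lam : ℝ, (∀ χ : (Fin D → Bool) → ℝ, lam * Heis.nsq χ ≤ Heis.form D E χ) →
        enB K D E (off coreE fE phiC phiJ d) (lam - 1 / 8) ≤
          groundEnergy (nel (base E ^ K.kn) D) Z R)

/-- **The program of the second half**: for all exponents with `kn` large enough (so that `Dl`, `Mm`,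
`kap` have polynomial lower bounds), a polynomial-time function which, on good codes, outputs the nuclei of some design, the right number of electrons, and the thresholds
`Zc² e0 + Zc (o + (k - 2 W + 1/4) s)` and `Zc² e0 + Zc (o + (k - 2 W + 3/4) s)` with
`|o - off| ≤ s / 16`. -/
def ProgStmt (coreE fE : ℕ → ℝ) (phiC phiJ : ℕ → ℝ → ℝ) : Prop :=
  ∃ k₀ : ℕ, ∀ K : Expo, k₀ ≤ K.kn → ∃ g : Heis.Code → Instance,
    (∃ G : Lib.PolyTime.Word → Lib.PolyTime.Word, Lib.PolyTime.FP ∅ G ∧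
      ∀ x : Heis.Code, G (Lib.PolyTime.enc x) = instW (g x)) ∧
    ∀ (D : ℕ) (E : List (ℕ × ℕ)) (k : ℕ), Heis.Good (D, E, k) →
      ∃ (d : Design K D E) (o : ℝ),
        |o - off coreE fE phiC phiJ d| ≤ 1 / (16 * (base E : ℝ) ^ K.ks) ∧
        (g (D, E, k)).nuclei ≠ [] ∧ ((g (D, E, k)).nuclei.map Prod.fst).Nodup ∧
        (∀ p ∈ (g (D, E, k)).nuclei, 1 ≤ p.2) ∧
        SameNuclei (fun j : Fin (g (D, E, k)).nuclei.length => ((g (D, E, k)).nuclei.get j).2)
          (fun j => point ((g (D, E, k)).nuclei.get j).1)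
          (base E ^ K.kZ) (H198.box ((base E ^ K.kt) ^ 4)) d.y ∧
        (g (D, E, k)).N = nel (base E ^ K.kn) D ∧
        (((g (D, E, k)).a : ℚ) : ℝ) = enB K D E o (k + 1 / 4) ∧
        (((g (D, E, k)).b : ℚ) : ℝ) = enB K D E o (k + 3 / 4)

/-- **Second half of line Q** from the analytic core and the program. -/
theorem toCont_of {coreE fE : ℕ → ℝ} {phiC phiJ : ℕ → ℝ → ℝ}
    (h1 : ContCoreStmt coreE fE phiC phiJ) (h2 : ProgStmt coreE fE phiC phiJ) :
    Heis.ToContStmt := by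
  obtain ⟨k₀, h2⟩ := h2
  obtain ⟨K, hk₀, hK, h1⟩ := h1 k₀
  obtain ⟨g, hG, hg⟩ := h2 K hk₀
  refine ⟨1, g, le_rfl, hG, ?_, ?_⟩
  all_goals
    rintro ⟨D, E, k⟩ hx
    have hgood : Heis.Good (D, E, k) := hx.1
    obtain ⟨d, o, ho, hne, hnd, hch, hsame, hN, ha, hb⟩ := hg D E k hgood
    have hB2 : (2 : ℝ) ≤ (base E : ℝ) := by
      unfold base; push_cast; linarith [Nat.cast_nonneg (α := ℝ) E.length]
    have hB0 : (0 : ℝ) < (base E : ℝ) := by linarith
    have hB1 : (1 : ℝ) ≤ (base E : ℝ) := by linarith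
    set Bs : ℝ := (base E : ℝ) ^ K.ks with hBs
    set BZ : ℝ := (base E : ℝ) ^ K.kZ with hBZ
    have hBs0 : 0 < Bs := pow_pos hB0 _
    have hBZ0 : 0 < BZ := pow_pos hB0 _
    have hratio : 2 * Bs ≤ BZ := by
      calc 2 * Bs ≤ (base E : ℝ) * Bs := mul_le_mul_of_nonneg_right hB2 hBs0.le
        _ = (base E : ℝ) ^ (K.ks + 1) := by rw [hBs]; ring
        _ ≤ BZ := pow_le_pow_right₀ hB1 hK
    have hNpos : 1 ≤ (g (D, E, k)).N := by
      rw [hN]; unfold nel
      have : 1 ≤ D := hgood.1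
      omega
    have hvalid : (g (D, E, k)).Valid 1 := by
      refine ⟨hne, hnd, hch, hNpos, ?_⟩
      rw [ha, hb]
      have e1 : enB K D E o (k + 3 / 4) - enB K D E o (k + 1 / 4) = BZ / (2 * Bs) := by
        unfold enB
        rw [← hBs, ← hBZ]
        field_simp
        ring
      rw [e1, pow_one]
      have h3 : (1 : ℝ) ≤ BZ / (2 * Bs) := by
        rw [le_div_iff₀ (by positivity)]; linarith
      refine le_trans ?_ h3
      rcases Nat.eq_zero_or_pos (g (D, E, k)).length with h0 | h0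
      · rw [h0]; norm_num
      · have : (1 : ℝ) ≤ ((g (D, E, k)).length : ℝ) := by exact_mod_cast h0
        rw [div_le_one (by linarith)]; exact this
    have hE : (g (D, E, k)).E₀ = groundEnergy (nel (base E ^ K.kn) D)
        (fun j : Fin (g (D, E, k)).nuclei.length => ((g (D, E, k)).nuclei.get j).2)
        (fun j => point ((g (D, E, k)).nuclei.get j).1) := by
      unfold Instance.E₀; rw [hN]
    obtain ⟨hup, hlo⟩ := h1 D E k hgood d _ _ hsame
    rw [abs_le] at ho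
    have hos : (1 : ℝ) / (16 * Bs) = (1 / 16) / Bs := by field_simp
    rw [hos] at ho
    have mono : ∀ o1 o2 l1 l2 : ℝ, o1 + l1 / Bs ≤ o2 + l2 / Bs →
        enB K D E o1 l1 ≤ enB K D E o2 l2 := by
      intro o1 o2 l1 l2 h
      unfold enB
      rw [← hBs, ← hBZ]
      have : o1 + (l1 - 2 * (E.length : ℝ)) / Bs ≤ o2 + (l2 - 2 * (E.length : ℝ)) / Bs := by
        rw [sub_div, sub_div]; linarith
      have := mul_le_mul_of_nonneg_left this hBZ0.le
      linarith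
  · refine ⟨hvalid, ?_⟩
    obtain ⟨χ, hχ0, hχ⟩ := hx.2
    have h3 := hup (k : ℝ) ⟨χ, hχ0, hχ⟩
    rw [hE, ha]
    refine h3.trans (mono _ _ _ _ ?_)
    have e2 : ((k : ℝ) + 1 / 4) / Bs = ((k : ℝ) + 1 / 8) / Bs + (1 / 16) / Bs + (1 / 16) / Bs := by
      field_simp; ring
    have e3 : 0 ≤ (1 / 16 : ℝ) / Bs := by positivity
    rw [e2]
    linarith [ho.1]
  · refine ⟨hvalid, ?_⟩
    have h3 := hlo ((k : ℝ) + 1) hx.2
    rw [hE, hb]
    refine le_trans (mono _ _ _ _ ?_) h3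
    have e2 : ((k : ℝ) + 1 - 1 / 8) / Bs = ((k : ℝ) + 3 / 4) / Bs + (1 / 16) / Bs + (1 / 16) / Bs := by
      field_simp; ring
    have e3 : 0 ≤ (1 / 16 : ℝ) / Bs := by positivity
    rw [e2]
    linarith [ho.2]

end

end Vale.Agent.P370.H305
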