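import Vale.Agent.P370.H305.Iface
import Vale.Agent.P370.H624.Basis
import Vale.Agent.P370.H758.Kernel
import Vale.Agent.P370.H600.Mott2
import Vale.Agent.P370.H98.R2aDefs

/-!
P370, line Q, half (II): the blocks of the analytic core `ContCoreStmt`, as exact statements, in the
form in which `contCore_of_blocks` uses them.  Principal quantum number `n = J + 1`; the shells are
those of `H624` (`Shell J` has principal number `J + 1`), `Filled J (Closed J)` = closed shells with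
principal numbers `1, …, J`, the valence shell is `Shell J`.
-/

namespace Vale.Agent.P370.H305

open MeasureTheory Finset
open Vale.Agent.P363.Stmt Vale.Agent.P363.R.H10 Vale.Agent.P370.H115
open Vale.Agent.P363.H849 (H1 ip)
open Vale.Agent.P370.H624 (Shell Closed Filled)
open Vale.Agent.P370.H98 (uS uT gUS gUT)
open Vale.Agent.P370.H758 (core)

noncomputable section

/-- the norm of an element of `H¹` in `L²` -/
def nrm (f : H1) : ℝ := Real.sqrt (ip f f)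

/-- Matrix element of the attraction by unit charges at `y k`, `k ∈ L`. -/
def lightF (L : Finset (Fin 3 → ℤ)) (y : (Fin 3 → ℤ) → R3) (f g : R3 → ℝ) : ℝ :=
  -∑ k ∈ L, H198.pot (fun x => f x * g x) (y k)

/-- Coulomb energy (direct and exchange) of the doubly filled closed shells. -/
def coreRep {J : ℕ} (S : Filled J (Closed J)) : ℝ :=
  ∑ k, ∑ l, (2 * DD (fun x => S.orb k x * S.orb k x) (fun x => S.orb l x * S.orb l x)
    - DD (fun x => S.orb k x * S.orb l x) (fun x => S.orb k x * S.orb l x))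

/-- First-order energy of the closed shells. -/
def coreV {J : ℕ} (S : Filled J (Closed J)) (L : Finset (Fin 3 → ℤ)) (y : (Fin 3 → ℤ) → R3) : ℝ :=
  2 * ∑ k, lightF L y (S.orb k) (S.orb k) + coreRep S

/-- One-body matrix of the valence electrons. -/
def tV {J : ℕ} (S : Filled J (Closed J)) (L : Finset (Fin 3 → ℤ)) (y : (Fin 3 → ℤ) → R3)
    {M : ℕ} (φ : Fin M → H1) (a b : Fin M) : ℝ :=
  lightF L y (φ a).1.1 (φ b).1.1 + core S (φ a).1.1 (φ b).1.1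

/-- Two-electron integrals `(ac|bd)` of the valence electrons (the convention of `H600`). -/
def gV {M : ℕ} (φ : Fin M → H1) (a c b d : Fin M) : ℝ :=
  DD (fun x => (φ a).1.1 x * (φ c).1.1 x) (fun x => (φ b).1.1 x * (φ d).1.1 x)

/-- **Blocks C2 + C3**: first-order perturbation theory with error independent of the heavy charge. -/
def C23Stmt : Prop := ∃ p : ℕ, ∀ (J D : ℕ) (S : Filled J (Closed J)), (∀ a, S.lv a = a.1.1) →
  ∀ φ : Fin ((J + 1) ^ 2) → H1, (∀ a, φ a ∈ Shell J) →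
  (∀ a b, ip (φ a) (φ b) = if a = b then 1 else 0) → 2 ≤ D → D ≤ J + 1 →
  ∀ (Zc : ℕ) (L : Finset (Fin 3 → ℤ)) (y : (Fin 3 → ℤ) → R3), (∀ k ∈ L, y k ≠ 0) →
  ∀ {M : ℕ} (Z : Fin M → ℕ) (R : Fin M → R3), SameNuclei Z R Zc L y →
  (J + D + L.card + 3) ^ p ≤ Zc → ∀ lam : ℝ,
  ((∀ ψ : H600.MSt D ((J + 1) ^ 2), H600.Anti ψ →
      lam * H600.nsq ψ ≤ H600.hform (tV S L y φ) (gV φ) ψ) →
    (Zc : ℝ) ^ 2 * e0 (J + 1) D + Zc * (coreV S L y + lam) - ((J + D + L.card + 3 : ℕ) : ℝ) ^ p ≤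
      groundEnergy (nel (J + 1) D) Z R) ∧
  ((∃ ψ : H600.MSt D ((J + 1) ^ 2), H600.Anti ψ ∧ 0 < H600.nsq ψ ∧
      H600.hform (tV S L y φ) (gV φ) ψ ≤ lam * H600.nsq ψ) →
    groundEnergy (nel (J + 1) D) Z R ≤
      (Zc : ℝ) ^ 2 * e0 (J + 1) D + Zc * (coreV S L y + lam))

/-- the rings are in the shell -/
def RingShellStmt : Prop := ∀ (J : ℕ) (a : ℝ), 1 ≤ J →
  (∃ w ∈ Shell J, w.1.1 = ringC (J + 1) a) ∧ (∃ w ∈ Shell J, w.1.1 = ringS (J + 1) a)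

/-- the second moment on the shell: minimal value and no coupling at the rings -/
def MomStmt : Prop := ∀ (J : ℕ), ∀ f ∈ Shell J,
  ((J : ℝ) + 1) ^ 2 * (J + 2) * (2 * J + 3) / 2 * ip f f ≤ ∫ x, ‖x‖ ^ 2 * (f.1.1 x * f.1.1 x) ∧
  ∀ a : ℝ, ∫ x, ‖x‖ ^ 2 * (f.1.1 x * ringC (J + 1) a x) =
    ((J : ℝ) + 1) ^ 2 * (J + 2) * (2 * J + 3) / 2 * ∫ x, f.1.1 x * ringC (J + 1) a x

/-- **Block P2**: Laplacians and norms of the products in the shell -/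
def P2Stmt : Prop := ∃ K : ℕ, ∀ (J : ℕ), ∀ f ∈ Shell J, ∀ g ∈ Shell J, ∃ L : R3 → ℝ,
  H198.IsLap (fun x => f.1.1 x * g.1.1 x) L ∧
    H198.Bnd (fun x => f.1.1 x * g.1.1 x) L (((J : ℝ) + 2) ^ K * (nrm f * nrm g))

/-- normalised spherical average of the density of the rings -/
def wn (n : ℕ) (x : R3) : ℝ :=
  ‖x‖ ^ (2 * (n - 1)) * Real.exp (-(2 * ‖x‖ / n)) /
    (4 * Real.pi * (Nat.factorial (2 * n) : ℝ) * ((n : ℝ) / 2) ^ (2 * n + 1))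

/-- facts on `wn` -/
def WnStmt (phiJ : ℕ → ℝ → ℝ) : Prop := ∃ K : ℕ, ∀ n : ℕ, 2 ≤ n →
  (∀ y : R3, y ≠ 0 → H198.pot (wn n) y = phiJ n ‖y‖) ∧
  ∫ x, wn n x = 1 ∧ ∫ x, ‖x‖ ^ 2 * wn n x = (n : ℝ) ^ 2 * (n + 1) * (2 * n + 1) / 2 ∧
  (∃ L : R3 → ℝ, H198.IsLap (wn n) L ∧ H198.Bnd (wn n) L ((n : ℝ) ^ K)) ∧
  (∀ a : ℝ, ∫ x, (ringC n a x ^ 2 - ringS n a x ^ 2) * wn n x = 0) ∧
  ∀ a b : ℝ, |∫ x, (ringC n a x * ringC n b x) * wn n x| ≤
    (n : ℝ) ^ K * |∫ x, ringC n a x * ringC n b x|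

/-- **Blocks C3iv + LC + CK5**: mean field of the closed shells -/
def FieldStmt (coreE fE : ℕ → ℝ) (phiC : ℕ → ℝ → ℝ) : Prop := ∃ K : ℕ,
  ∀ (J : ℕ) (S : Filled J (Closed J)), 1 ≤ J → (∀ a, S.lv a = a.1.1) →
  (∀ y : R3, y ≠ 0 → 2 * ∑ a, H198.pot (fun x => S.orb a x * S.orb a x) y = phiC (J + 1) ‖y‖) ∧
  coreRep S = coreE (J + 1) ∧
  (∀ f ∈ Shell J, ∀ a : ℝ, core S f.1.1 (ringC (J + 1) a) =
    fE (J + 1) * ∫ x, f.1.1 x * ringC (J + 1) a x) ∧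
  (∀ f ∈ Shell J, ∀ g ∈ Shell J,
    |core S f.1.1 g.1.1| ≤ ((J : ℝ) + 2) ^ K * (nrm f * nrm g))

/-- crude bound of the two-electron integrals in the shell -/
def GStmt : Prop := ∃ K : ℕ, ∀ (J : ℕ), ∀ f₁ ∈ Shell J, ∀ f₂ ∈ Shell J, ∀ f₃ ∈ Shell J,
  ∀ f₄ ∈ Shell J, |DD (fun x => f₁.1.1 x * f₂.1.1 x) (fun x => f₃.1.1 x * f₄.1.1 x)| ≤
    ((J : ℝ) + 2) ^ K * (nrm f₁ * nrm f₂ * nrm f₃ * nrm f₄)

/-- **Block R1c**: the self-energy of a ring -/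
def DiagStmt : Prop := ∃ (C : ℝ) (c : ℕ), 0 < C ∧ ∀ (n m i : ℕ), 2 ≤ n → 2 ≤ m → i < m →
  Dm n m i i ≤ C * (m : ℝ) ^ c * (n : ℝ) ^ (-(13 / 7) : ℝ)

end

end Vale.Agent.P370.H305
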