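import Vale.Agent.P370.H305.Val
import Vale.Agent.P370.H890.Orth

/-!
P370, line Q, half (II): from the bilinear forms on the shell to the hypotheses of the matrix theorem
(abstract part).
-/

namespace Vale.Agent.P370.H305

open Finset Function
open Vale.Agent.P370.H890

noncomputable section

/-- The bilinear forms on the shell `V`: `b` = inner product, `T` = one-body form, `m2` = second
moment, `sel` = selection form of the rings `C` and partners `R`, `uT` = hopping potential, `cr` =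
mean field of the closed shells, `r` = remainder of the lattice. -/
structure AbsIn {V : Type*} [AddCommGroup V] [Module ℝ V] {m : ℕ}
    (b T m2 uT cr r : V →ₗ[ℝ] V →ₗ[ℝ] ℝ) (C R : Fin m → V) (h : Fin m → Fin m → ℝ)
    (κL P s S fE Kc Ku εL mix η : ℝ) : Prop where
  psd : PSD b
  P0 : 0 ≤ P
  S0 : 0 ≤ S
  Tsymm : ∀ x y, T x y = T y x
  Teq : ∀ x y, T x y =
    -κL * b x y + P * m2 x y + S * sel b C R x y + uT x y + cr x y + r x y
  m2lo : ∀ x, s * b x x ≤ m2 x x
  m2C : ∀ x i, m2 x (C i) = s * b x (C i)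
  crC : ∀ x i, cr x (C i) = fE * b x (C i)
  crb : ∀ x y, |cr x y| ≤ Kc * (nb b x * nb b y)
  uTb : ∀ x y, |uT x y| ≤ Ku * (nb b x * nb b y)
  rb : ∀ x y, |r x y| ≤ εL * (nb b x * nb b y)
  Cn : ∀ i, b (C i) (C i) = 1
  ov : ∀ i j, |b (C i) (C j) - if i = j then 1 else 0| ≤ η
  CR : ∀ i j, b (C i) (R j) = 0
  uTC : ∀ i j, |uT (C i) (C j) - (if i = j then 0 else h i j)| ≤ mix
  Kc0 : 0 ≤ Kc
  Ku0 : 0 ≤ Ku
  εL0 : 0 ≤ εL
  mix0 : 0 ≤ mix
  η0 : 0 ≤ η
  hη : 16 * m * η ≤ 1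
  m0 : 0 < m

end

end Vale.Agent.P370.H305
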