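import Vale.Agent.P370.H305.RingM

/-!
P370, line Q, half (II): exact statement of COMP-INST (the concrete forms on the shell satisfy `AbsIn`)
and of the four-index part.
-/

namespace Vale.Agent.P370.H305

open Finset Function
open Vale.Agent.P370.H115 Vale.Agent.P363.R.H10 Vale.Agent.P370.H890
open Vale.Agent.P363.Stmt (R3)
open Vale.Agent.P363.H849 (H1 ip)
open Vale.Agent.P370.H624 (Shell Closed Filled)
open Vale.Agent.P370.H98 (uS uT gUS gUT)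
open Vale.Agent.P370.H758 (core)

noncomputable section

/-- the inner product on the shell -/
def ipS (J : ℕ) : Shell J →ₗ[ℝ] Shell J →ₗ[ℝ] ℝ :=
  ip.compl₁₂ (Shell J).subtype (Shell J).subtype

theorem ipS_apply {J : ℕ} (f g : Shell J) : ipS J f g = ip (f : H1) (g : H1) := rfl

/-- overlap bound of the rings -/
def etaR (J m : ℕ) : ℝ := 2 * Real.exp (-((((J + 1 : ℕ) : ℝ) - 1) / (m : ℝ) ^ 2))

/-- bound of the non-resonant hoppings -/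
def mixR (J m : ℕ) (τ : ℝ) : ℝ := 1600000 * (m : ℝ) ^ 2 * ((J + 1 : ℕ) : ℝ) ^ 6 * τ *
  Real.exp (-((((J + 1 : ℕ) : ℝ) - 1) / (8 * (m : ℝ) ^ 4)))

/-- the positions of the light nuclei realise the potential `uS + uT` -/
def GoodPos (J m t : ℕ) (S : ℝ) (T : ℕ → ℕ → ℝ) (y : (Fin 3 → ℤ) → R3) : Prop :=
  ∀ k ∈ H198.box (t ^ 4), y k ≠ 0 ∧
    ‖y k - (H198.pt (1 / (t : ℝ)) k - (1 / (4 * Real.pi * (t : ℝ) ^ 3)) •
      (gUS (J + 1) m S (H198.pt (1 / (t : ℝ)) k) + gUT (J + 1) m T (H198.pt (1 / (t : ℝ)) k)))‖ ≤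
        1 / (t : ℝ) ^ 13

/-- **COMP-INST** -/
def CompStmt (fE : ℕ → ℝ) : Prop := ∃ K : ℕ, ∀ (J m t : ℕ) (S τ : ℝ) (T : ℕ → ℕ → ℝ)
    (y : (Fin 3 → ℤ) → R3) (Sf : Filled J (Closed J)),
  3 ≤ J → 2 ≤ m → m ≤ J + 1 → 0 ≤ S → 0 ≤ τ → (∀ a b, |T a b| ≤ τ) → 1 ≤ t →
  GoodPos J m t S T y → (∀ a, Sf.lv a = a.1.1) → 16 * m * etaR J m ≤ 1 →
  ∃ (Tb m2 uTb cr r : Shell J →ₗ[ℝ] Shell J →ₗ[ℝ] ℝ) (C R : Fin m → Shell J),
    AbsIn (ipS J) Tb m2 uTb cr r C R (hR T) (H198.kap t) (2 * Real.pi / 3 * (t : ℝ) ^ 3)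
      (((J : ℝ) + 1) ^ 2 * (J + 2) * (2 * J + 3) / 2) S (fE (J + 1))
      (((J : ℝ) + 2) ^ K) (((J : ℝ) + 2) ^ K * τ)
      (((J : ℝ) + 2) ^ K * (1 + S + τ) ^ 2 / Real.sqrt t) (mixR J m τ) (etaR J m) ∧
    (∀ f g : Shell J, Tb f g =
      lightF (H198.box (t ^ 4)) y (f : H1).1.1 (g : H1).1.1 + core Sf (f : H1).1.1 (g : H1).1.1) ∧
    ∀ i, (C i : H1).1.1 = rC (J + 1) m i

/-- **the two-electron integrals** -/
def GCompStmt : Prop := ∃ K : ℕ, ∀ (J m : ℕ) (C e0 : Fin m → Shell J)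
    (A : Fin m → Fin m → ℝ) (ε : ℝ), 1 ≤ J → 2 ≤ m →
  (∀ i, (C i : H1).1.1 = rC (J + 1) m i) → OrthOut (ipS J) C e0 A ε →
  (∀ i k j l, |DD (fun x => (e0 i : H1).1.1 x * (e0 k : H1).1.1 x)
      (fun x => (e0 j : H1).1.1 x * (e0 l : H1).1.1 x) - g0R (J + 1) m i k j l| ≤
    9 * ε * ((J : ℝ) + 2) ^ K) ∧
  ∀ (M : ℕ) (φ : Fin M → H1), (∀ a, φ a ∈ Shell J) → (∀ a, ip (φ a) (φ a) = 1) →
    ∀ a c b d, |gV φ a c b d| ≤ ((J : ℝ) + 2) ^ K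

end

end Vale.Agent.P370.H305
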