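import Vale.Agent.P370.H305.Comp

/-!
P370, line Q, half (II): the one-body part of `ValHyp` from `AbsIn`.
-/

namespace Vale.Agent.P370.H305

open Finset Function
open Vale.Agent.P370.H890

noncomputable section

variable {V : Type*} [AddCommGroup V] [Module ℝ V] {m : ℕ}
  {b T m2 uT cr r : V →ₗ[ℝ] V →ₗ[ℝ] ℝ} {C R : Fin m → V} {h : Fin m → Fin m → ℝ}
  {κL P s S fE Kc Ku εL mix η : ℝ}

theorem sel_symm (x y : V) : sel b C R x y = sel b C R y x := by
  unfold sel
  congr 1
  refine sum_congr rfl fun i _ => by ring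

section

variable (H : AbsIn b T m2 uT cr r C R h κL P s S fE Kc Ku εL mix η)

include H

theorem AbsIn.nbC (i : Fin m) : nb b (C i) = 1 := by
  rw [nb, H.Cn i, Real.sqrt_one]

theorem AbsIn.fE_le : |fE| ≤ Kc := by
  have h1 := H.crb (C ⟨0, H.m0⟩) (C ⟨0, H.m0⟩)
  rw [H.crC, H.Cn, H.nbC] at h1
  simpa using h1

variable {e0 : Fin m → V} {A : Fin m → Fin m → ℝ} {ε : ℝ} (ho : OrthOut b C e0 A ε)

include ho

omit H in
theorem lin_e (F G : V →ₗ[ℝ] ℝ) (hFG : ∀ i, F (C i) = G (C i)) (i : Fin m) :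
    F (e0 i) = G (e0 i) := by
  rw [ho.eq i, map_sum, map_sum]
  refine sum_congr rfl fun j _ => ?_
  rw [map_smul, map_smul, hFG]

theorem AbsIn.m2e (x : V) (i : Fin m) : m2 x (e0 i) = s * b x (e0 i) := by
  have := lin_e ho (m2 x) (s • b x) (fun i => by simp [H.m2C]) i
  simpa using this

theorem AbsIn.cre (x : V) (i : Fin m) : cr x (e0 i) = fE * b x (e0 i) := by
  have := lin_e ho (cr x) (fE • b x) (fun i => by simp [H.crC]) i
  simpa using this

variable {M : ℕ} {φ : Fin M → V} (hφ : ∀ a c, b (φ a) (φ c) = if a = c then 1 else 0)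
  {e : Fin m → Fin M} (hφe : ∀ i, φ (e i) = e0 i)

include hφ hφe

/-- the complement of the rings -/
theorem AbsIn.compl (v : Fin M → ℝ) (hv : ∀ i, v (e i) = 0) :
    ((-κL + P * s - S + fE) + (S - 2 * Kc - Ku - εL)) * ∑ a, v a ^ 2 ≤
      ∑ a, ∑ c, T (φ a) (φ c) * v a * v c := by
  set z : V := ∑ a, v a • φ a with hz
  have hzb : ∀ c, b z (φ c) = v c := by
    intro c
    rw [hz, map_sum, LinearMap.sum_apply]
    rw [Finset.sum_eq_single c]
    · simp [hφ]
    · intro a _ ha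
      simp [hφ, ha]
    · simp
  have hzz : b z z = ∑ a, v a ^ 2 := by
    conv_lhs => rw [hz, ← hz, hz, map_sum]
    rw [← hz]
    refine sum_congr rfl fun a _ => ?_
    rw [map_smul, hzb, smul_eq_mul]; ring
  have hTz : T z z = ∑ a, ∑ c, T (φ a) (φ c) * v a * v c := by
    have g1 : ∀ x, T z x = ∑ a, v a * T (φ a) x := fun x => by
      rw [hz, map_sum, LinearMap.sum_apply]
      simp only [map_smul, LinearMap.smul_apply, smul_eq_mul]
    have g2 : ∀ a, T (φ a) z = ∑ c, v c * T (φ a) (φ c) := fun a => by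
      rw [hz, map_sum]
      simp only [map_smul, smul_eq_mul]
    rw [g1]
    refine sum_congr rfl fun a _ => ?_
    rw [g2, mul_sum]
    refine sum_congr rfl fun c _ => by ring
  have hze : ∀ i, b z (e0 i) = 0 := fun i => by rw [← hφe i, hzb, hv]
  rw [← hTz, ← hzz, H.Teq]
  have h1 := sel_perp_nonneg (S := R) H.psd ho hze
  have h2 := H.m2lo z
  have h3 := (abs_le.1 (H.uTb z z)).1
  have h4 := (abs_le.1 (H.crb z z)).1
  have h5 := (abs_le.1 (H.rb z z)).1
  have h6 : nb b z * nb b z = b z z := by rw [← nb_sq H.psd z]; ring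
  rw [h6] at h3 h4 h5
  have h7 := H.psd.nonneg z
  have h8 := (abs_le.1 H.fE_le).2
  have h9 := mul_le_mul_of_nonneg_left h2 H.P0
  have h10 := mul_nonneg H.S0 h1
  have h11 : (Kc - fE) * b z z ≥ 0 := mul_nonneg (by linarith) h7
  nlinarith

/-- the coupling of the rings with their complement -/
theorem AbsIn.cross (i : Fin m) (c : Fin M) (hc : c ∉ Set.range e) :
    |T (φ (e i)) (φ c)| ≤ Ku + εL ∧ |T (φ c) (φ (e i))| ≤ Ku + εL := by
  have hbe : ∀ j, b (φ c) (e0 j) = 0 := fun j => by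
    rw [← hφe j, hφ, if_neg]
    rintro rfl
    exact hc ⟨j, rfl⟩
  have key : |T (φ c) (φ (e i))| ≤ Ku + εL := by
    rw [hφe i, H.Teq, hbe, H.m2e ho, H.cre ho, hbe, sel_symm, sel_cross H.psd ho H.CR hbe]
    have h1 := H.uTb (φ c) (e0 i)
    have h2 := H.rb (φ c) (e0 i)
    have n1 : nb b (φ c) = 1 := by rw [nb, hφ]; simp
    have n2 : nb b (e0 i) = 1 := by rw [nb, ho.on]; simp
    rw [n1, n2, mul_one, mul_one] at h1 h2
    have h3 := abs_add_le (uT (φ c) (e0 i)) (r (φ c) (e0 i))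
    have h4 : -κL * 0 + P * (s * 0) + S * 0 + uT (φ c) (e0 i) + fE * 0 + r (φ c) (e0 i) =
        uT (φ c) (e0 i) + r (φ c) (e0 i) := by ring
    rw [h4]
    linarith
  exact ⟨by rw [H.Tsymm]; exact key, key⟩

omit hφ in
/-- the ring block -/
theorem AbsIn.ring (hη1 : η ≤ 1) (i j : Fin m) :
    |T (φ (e i)) (φ (e j)) - (if i = j then -κL + P * s - S + fE else h i j)| ≤
      S * (2 * (2 * ε + η) + m * (2 * ε + η) ^ 2) + (mix + 3 * ε * Ku) + εL := by
  rw [hφe, hφe, H.Teq, H.m2e ho, H.cre ho, ho.on]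
  have h1 := sel_rings H.psd ho H.η0 hη1 H.ov H.CR i j
  have hu : ∀ i j, |uT (C i) (C j)| ≤ Ku := fun i j => by
    have := H.uTb (C i) (C j)
    rwa [H.nbC, H.nbC, mul_one, mul_one] at this
  have h2 := ho.bil uT hu i j
  have h3 := H.uTC i j
  have h4 := H.rb (e0 i) (e0 j)
  have n2 : ∀ i, nb b (e0 i) = 1 := fun i => by rw [nb, ho.on]; simp
  rw [n2, n2, mul_one, mul_one] at h4
  have h5 : |S * (sel b C R (e0 i) (e0 j) + if i = j then 1 else 0)| ≤
      S * (2 * (2 * ε + η) + m * (2 * ε + η) ^ 2) := by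
    rw [abs_mul, abs_of_nonneg H.S0]
    exact mul_le_mul_of_nonneg_left h1 H.S0
  have e1 : -κL * (if i = j then 1 else 0) + P * (s * if i = j then 1 else 0) +
      S * sel b C R (e0 i) (e0 j) + uT (e0 i) (e0 j) + fE * (if i = j then 1 else 0) +
      r (e0 i) (e0 j) - (if i = j then -κL + P * s - S + fE else h i j) =
      S * (sel b C R (e0 i) (e0 j) + if i = j then 1 else 0) +
      (uT (e0 i) (e0 j) - uT (C i) (C j)) + (uT (C i) (C j) - (if i = j then 0 else h i j))
      + r (e0 i) (e0 j) := by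
    split_ifs <;> ring
  rw [e1]
  have a1 := abs_add_le (S * (sel b C R (e0 i) (e0 j) + if i = j then 1 else 0) +
      (uT (e0 i) (e0 j) - uT (C i) (C j)) + (uT (C i) (C j) - (if i = j then 0 else h i j)))
      (r (e0 i) (e0 j))
  have a2 := abs_add_le (S * (sel b C R (e0 i) (e0 j) + if i = j then 1 else 0) +
      (uT (e0 i) (e0 j) - uT (C i) (C j))) (uT (C i) (C j) - (if i = j then 0 else h i j))
  have a3 := abs_add_le (S * (sel b C R (e0 i) (e0 j) + if i = j then 1 else 0))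
      (uT (e0 i) (e0 j) - uT (C i) (C j))
  linarith

end

end

end Vale.Agent.P370.H305
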