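import Vale.Agent.P370.H305.CompDefs
import Vale.Agent.P370.H617.G4

/-!
P370, line Q, half (II): the two-electron integrals of the orthonormalised rings.
-/

namespace Vale.Agent.P370.H305

open MeasureTheory Finset Function
open Vale.Agent.P370.H115 Vale.Agent.P363.R.H10 Vale.Agent.P370.H890
open Vale.Agent.P363.Stmt (R3)
open Vale.Agent.P363.H849 (H1 ip)
open Vale.Agent.P370.H624 (Shell)

noncomputable section

theorem gCompStmt : GCompStmt := by
  obtain ⟨K, hK⟩ := H617.gV_bound
  refine ⟨K, fun J m C e0 A ε hJ hm hCf ho => ⟨fun i k j l => ?_, fun M φ h1 h2 => (hK J).2 φ h1 h2⟩⟩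
  have hn : ∀ i, nrm (C i : H1) = 1 := by
    intro i
    have h1 : ip (C i : H1) (C i : H1) = ∫ x, (C i : H1).1.1 x * (C i : H1).1.1 x := rfl
    have h2 := H253.norm_rC (n := J + 1) (by omega) m i
    unfold nrm
    rw [h1, hCf]
    have h3 : (∫ x, rC (J + 1) m i x * rC (J + 1) m i x) = 1 := by
      rw [← h2]
      congr 1; funext x; ring
    rw [h3, Real.sqrt_one]
  have hG : ∀ i j k l, |H617.G4 J (C i) (C j) (C k) (C l)| ≤ ((J : ℝ) + 2) ^ K := by
    intro i j k l
    refine ((hK J).1 _ _ _ _).trans (le_of_eq ?_)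
    rw [hn, hn, hn, hn]; ring
  have h := ho.quad (fun a b c d => H617.G4 J a b c d)
    (fun i j k l => ho.expand4 (H617.G4 J) i j k l) hG i k j l
  have e1 : H617.G4 J (C i) (C k) (C j) (C l) = g0R (J + 1) m i k j l := by
    rw [H617.G4_apply]
    unfold g0R
    rw [hCf, hCf, hCf, hCf]
  rw [e1] at h
  exact h

end

end Vale.Agent.P370.H305
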