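import Vale.Agent.P370.H305.Final
import Vale.Agent.P370.H305.GComp
import Vale.Agent.P370.H253.Light
import Vale.Agent.P370.H253.US
import Vale.Agent.P370.H198.Final
import Vale.Agent.P370.H696.Disp2
import Vale.Agent.P370.H617.Stmts
import Vale.Agent.P370.H227.WnS
import Vale.Agent.P370.H374.Field
import Vale.Agent.P370.H890.UT
import Vale.Agent.P370.H890.Off
import Vale.Agent.P370.H115.Mix
import Vale.Agent.P370.H98.Rank
import Vale.Agent.P370.H98.Kap
import Vale.Agent.P370.H758.Inst
import Vale.Agent.P370.H405.C23Fin
import Vale.Agent.P370.H207.UD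
import Vale.Agent.P370.H207.Nums

/-!
P370, line Q, half (II): the analytic core, all blocks put together.
-/

namespace Vale.Agent.P370.H305

theorem contCore_of_disp (hD : H98.DispuStmt) :
    ContCoreStmt H374.coreE H374.fE H227.phiC H227.phiJ := by
  have hLat : H198.LatticeStmt := H198.latticeStmt_of_disp H696.dispStmt
  have hL : LightStmt H227.phiJ := H253.lightStmt hLat H617.p2Stmt H227.wnStmt hD
  have hF := H374.fieldStmt
  have hUT := H890.utStmt H115.mix_stmt H98.kapStmt
  have hUS := H253.usStmt H98.rankStmt H98.kapStmt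
  have hC := H758.compStmt hL hF hUT H890.ovStmt hUS hD
  exact contCore_of hC gCompStmt H405.C2.c23 H207.udStmt
    (H890.offStmt hF hL (H890.utwStmt H227.wnStmt)) H207.numStmt

end Vale.Agent.P370.H305
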