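import Vale.Agent.P370.H305.FinalB

/-!
P370, line Q, half (II): `ContCoreStmt` from the blocks (main theorem).
-/

namespace Vale.Agent.P370.H305

open Finset Function
open Vale.Agent.P370.H115 Vale.Agent.P363.R.H10 Vale.Agent.P370.H890
open Vale.Agent.P363.Stmt
open Vale.Agent.P363.H849 (H1 ip)
open Vale.Agent.P370.H624 (Shell Closed Filled)
open Vale.Agent.P370.H98 (uS uT gUS gUT)
open Vale.Agent.P370.H758 (core)

noncomputable section

theorem epL_mono {K K' : ℕ} (h : K ≤ K') (J : ℕ) (S τ : ℝ) (t : ℕ) :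
    epL K J S τ t ≤ epL K' J S τ t := by
  unfold epL
  have h1 : (1 : ℝ) ≤ (J : ℝ) + 2 := by linarith [Nat.cast_nonneg (α := ℝ) J]
  have h2 := pow_le_pow_right₀ h1 h
  gcongr

theorem JJ_le {n D : ℕ} (hn2 : 2 ≤ n) (hD2 : 2 ≤ D) : JJ (g0R n D) ≤ (D : ℝ) ^ 2 := by
  unfold JJ
  have g1 : ∑ a, ∑ b ∈ univ.erase a, H600.Jm (g0R n D) a b ≤
      ∑ _a : Fin D, ∑ _b : Fin D, (1 : ℝ) := by
    refine sum_le_sum fun a _ => ?_
    refine (sum_le_sum (f := fun b => H600.Jm (g0R n D) a b) (g := fun _ => (1 : ℝ))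
      fun b _ => ?_).trans ?_
    · rw [Jm_g0R]
      exact (abs_le.1 (H253.Dm_abs_le_one hn2 hD2 a.2 b.2)).2
    · exact sum_le_sum_of_subset_of_nonneg (subset_univ _) (fun _ _ _ => zero_le_one)
  simp only [sum_const, card_univ, Fintype.card_fin, nsmul_eq_mul, mul_one] at g1
  nlinarith [sq_nonneg (D : ℝ)]

/-- **The analytic core of half (II)** -/
theorem contCore_of {coreE fE : ℕ → ℝ} {phiC phiJ : ℕ → ℝ → ℝ}
    (hC : CompStmt fE) (hG : GCompStmt) (h23 : C23Stmt) (hUD : UDStmt)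
    (hOff : OffStmt coreE fE phiC phiJ) (hNum : NumStmt) :
    ContCoreStmt coreE fE phiC phiJ := by
  obtain ⟨K1, hC⟩ := hC
  obtain ⟨K2, hG⟩ := hG
  obtain ⟨K3, hOff⟩ := hOff
  obtain ⟨p, h23⟩ := h23
  intro k₀
  obtain ⟨Ex, hk₀, hkZ, hN⟩ := hNum (K1 + K2 + K3) p k₀
  set K := K1 + K2 + K3 with hK
  refine ⟨Ex, hk₀, hkZ, ?_⟩
  intro D Ed kk hgood d M Z R hsame
  -- parameters
  obtain ⟨hD1, hDE, hE⟩ := hgood
  simp only at hD1 hDE hE
  have hEpos : 0 < Ed.length := by omega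
  obtain ⟨e1, he1⟩ := List.exists_mem_of_length_pos hEpos
  have hD2 : 2 ≤ D := by
    have := hE e1 he1
    omega
  set B := base Ed with hB
  have hBdef : B = Ed.length + 2 := rfl
  have hB3 : 3 ≤ B := by omega
  have hDB : D ≤ B := by omega
  have hBpos : 0 < B := by omega
  have hB0 : (0 : ℝ) < (B : ℝ) := by exact_mod_cast hBpos
  have hB2r : (2 : ℝ) ≤ (B : ℝ) := by exact_mod_cast (by omega : 2 ≤ B)
  have hlenB : (Ed.length : ℝ) + 2 ≤ (B : ℝ) := by rw [hBdef]; push_cast; linarith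
  obtain ⟨J, hJ⟩ : ∃ J, B ^ Ex.kn = J + 1 := ⟨B ^ Ex.kn - 1, by
    have : 0 < B ^ Ex.kn := pow_pos hBpos _
    omega⟩
  set s : ℝ := 1 / (B : ℝ) ^ Ex.ks with hs
  have hs0 : 0 < s := by positivity
  set t : ℕ := B ^ Ex.kt with ht
  have htr : (B : ℝ) ^ Ex.kt = (t : ℝ) := by rw [ht]; push_cast; rfl
  set Zc : ℕ := B ^ Ex.kZ with hZc
  have hZr : (B : ℝ) ^ Ex.kZ = (Zc : ℝ) := by rw [hZc]; push_cast; rfl
  have hZpos : (0 : ℝ) < (Zc : ℝ) := by rw [← hZr]; positivity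
  set S : ℝ := d.σ * kap (J + 1) with hS
  have hσ := d.hσ
  rw [← hB, hJ] at hσ
  have hS0 : 0 ≤ S := le_trans (by positivity) hσ.1
  set Δ : ℝ := 3000 * ((J + 1 : ℕ) : ℝ) ^ (-(13 / 7) : ℝ) with hΔ
  have hΔ0 : 0 ≤ Δ := by positivity
  set τ : ℝ := Real.sqrt (B * Δ * s) with hτd
  have hτ0 : 0 ≤ τ := Real.sqrt_nonneg _
  have hτ2 : τ ^ 2 ≤ B * Δ * (1 / (B : ℝ) ^ Ex.ks) := by
    rw [hτd, Real.sq_sqrt (by positivity)]
  have N := hN B J D S τ Δ hB3 hJ.symm hD2 hDB hσ.1 hσ.2 hτ0 hΔ0 le_rfl hτ2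
  rw [← ht, ← hZc, ← hs] at N
  have hJ3 := N.J3
  have hDJ := N.mJ
  have hn2 : 2 ≤ J + 1 := by omega
  -- hoppings
  set T : ℕ → ℕ → ℝ := fun a b => if a < b ∧ b < D then d.τ a b * Mm (J + 1) D a b else 0 with hT
  have hDl : ∀ a b, a < b → b < D → 0 < Dl (J + 1) D a b ∧ Dl (J + 1) D a b ≤ 2 * Δ := by
    intro a b hab hb
    refine ⟨lt_of_lt_of_le (by positivity)
      (H253.Dl_lower hD2 N.nbig (hab.trans hb) hb (Nat.ne_of_lt hab)), ?_⟩
    have h1 := H253.Dm_le_pow hn2 D a a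
    have h2 := H253.Dm_le_pow hn2 D a b
    unfold Dl
    have := (abs_le.1 h1).2
    have := (abs_le.1 h2).1
    linarith
  have hτd' := d.hτ
  rw [← hB, hJ] at hτd'
  have hcount : ∀ a b : ℕ, (Ed.count (a, b) : ℝ) ≤ (B : ℝ) - 2 := by
    intro a b
    have : (Ed.count (a, b) : ℝ) ≤ (Ed.length : ℝ) := by
      exact_mod_cast List.count_le_length
    linarith
  have hhop : ∀ a b, a < b → b < D →
      |2 * (d.τ a b * Mm (J + 1) D a b) ^ 2 / Dl (J + 1) D a b - Ed.count (a, b) * s| ≤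
        s / (32 * (B : ℝ) ^ 2) := by
    intro a b hab hb
    have h1 := hτd' a b hab hb
    rw [hs]
    refine (le_of_eq ?_).trans (h1.trans (le_of_eq ?_))
    · congr 1; ring
    · field_simp
  have hTb : ∀ a b, |T a b| ≤ τ := by
    intro a b
    simp only [hT]
    by_cases hab : a < b ∧ b < D
    · rw [if_pos hab]
      obtain ⟨h1, h2⟩ := hDl a b hab.1 hab.2
      exact hop_le h1 h2 hs0 (hcount a b) hB2r (hhop a b hab.1 hab.2)
    · rw [if_neg hab, abs_zero]; exact hτ0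
  -- positions
  have hpos : GoodPos J D t S T d.y := by
    intro k hk
    have hy := d.hy
    have hy0 := d.hy0
    rw [← hB, hJ, htr] at hy
    rw [← hB] at hy0
    refine ⟨hy0 k hk, ?_⟩
    have h1 := hy k hk
    unfold dpt at h1
    rw [(hUD (J + 1) D d.σ d.τ (by omega)).2] at h1
    have h2 := gUT_congr (n := J + 1) (m := D) (T := fun a b => d.τ a b * Mm (J + 1) D a b)
      (T' := T) (fun a b hab hb => by simp only [hT]; rw [if_pos ⟨hab, hb⟩])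
      (H198.pt (1 / (t : ℝ)) k)
    rw [h2] at h1
    exact h1
  obtain ⟨Sf, hSf⟩ := exists_filled J
  obtain ⟨Tb, m2, uTb, cr, r, C, Rr, HA, hTbe, hCf⟩ := hC J D t S τ T d.y Sf hJ3 hD2 hDJ hS0 hτ0
    hTb N.t1 hpos hSf N.eta
  have hX1 : (1 : ℝ) ≤ (J : ℝ) + 2 := by linarith [Nat.cast_nonneg (α := ℝ) J]
  have hp1 : ((J : ℝ) + 2) ^ K1 ≤ ((J : ℝ) + 2) ^ K := pow_le_pow_right₀ hX1 (by omega)
  have hp2 : ((J : ℝ) + 2) ^ K2 ≤ ((J : ℝ) + 2) ^ K := pow_le_pow_right₀ hX1 (by omega)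
  have HA' := HA.mono hp1 (mul_le_mul_of_nonneg_right hp1 hτ0)
    (epL_mono (show K1 ≤ K by omega) J S τ t)
  have hbS0 : 0 < bS K J D S τ t := by
    have h1 := epL_nonneg K J S τ t
    have h2 := eta1_nonneg (K := K) (J := J) (m := D) (t := t) hS0 hτ0
    have h3 : 0 ≤ tauP K J D S τ t := by unfold tauP; positivity
    have h4 : (0 : ℝ) < (D : ℝ) ^ 2 := by positivity
    unfold bS
    positivity
  have hgap : 0 < gapS K J S τ t := by
    have := N.sel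
    linarith
  obtain ⟨φ, e, hφ1, hφ2, HV⟩ := exists_val HA' hTbe
    (fun e0 A ε ho => by
      obtain ⟨g1, g2⟩ := hG J D C e0 A ε (by omega) hD2 hCf ho
      refine ⟨fun i k j l => (g1 i k j l).trans ?_, fun M φ h1 h2 a c b d => (g2 M φ h1 h2 a c b d).trans hp2⟩
      have := ho.nonneg
      gcongr) N hD2 hTb hgap
  have hmu : -H198.kap t + 2 * Real.pi / 3 * (t : ℝ) ^ 3 *
    (((J : ℝ) + 1) ^ 2 * (J + 2) * (2 * J + 3) / 2) - S + fE (J + 1) = muR fE J t S := rfl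
  rw [hmu] at HV
  -- second order
  obtain ⟨hheff, hk0⟩ := heff_bounds (t := fun a b : Fin D =>
      if a = b then nuR (J + 1) D else hR T a b) (g := g0R (J + 1) D) (s := s) (B := (B : ℝ))
    hE hs0 hlenB (by exact_mod_cast hDB) HV.mott.tsymm HV.mott.Jsymm (fun a b hab => by
      rw [Del_R hn2]
      have hne : a ≠ b := ne_of_lt hab
      have h1 := hhop a b hab b.2
      simp only [if_neg hne, hR, min_eq_left hab.le, max_eq_right hab.le, neg_sq]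
      simp only [hT]
      rw [if_pos ⟨hab, b.2⟩]
      refine (le_of_eq ?_).trans h1
      congr 1; ring)
  -- offset
  have hoffr : off coreE fE phiC phiJ d = offR coreE fE phiC phiJ J D t S d.y := by
    unfold off offR
    rw [← hB, hJ]
  have hO := hOff J D t S τ T d.y Sf hJ3 hD2 hDJ hS0 hτ0 hTb N.t1 hpos hSf
  have hO2 : |coreV Sf (H198.box (t ^ 4)) d.y + D * muR fE J t S + JJ (g0R (J + 1) D)
      - off coreE fE phiC phiJ d| ≤ s / 64 := by
    rw [hoffr]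
    refine hO.trans (le_trans ?_ N.offE)
    have h1 := epL_mono (show K3 ≤ K by omega) J S τ t
    have h2 : (1 : ℝ) ≤ ((J + 1 : ℕ) : ℝ) := by exact_mod_cast (by omega : 1 ≤ J + 1)
    have h3 : ((J + 1 : ℕ) : ℝ) ^ K3 ≤ ((J + 1 : ℕ) : ℝ) ^ K := pow_le_pow_right₀ h2 (by omega)
    gcongr
  rw [abs_le] at hO2
  -- first-order perturbation theory
  have hLcard : (H198.box (t ^ 4)).card = cardL t := card_box _
  have h23' := h23 J D Sf hSf φ hφ1 hφ2 hD2 hDJ Zc (H198.box (t ^ 4)) d.y d.hy0 Z R hsame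
    (by rw [hLcard]; exact N.heavy)
  rw [hLcard] at h23'
  have hheavy : (((J + D + cardL t + 3 : ℕ) : ℝ) ^ p) ≤ Zc * (s / 64) := by
    have := N.heavyE
    rwa [div_le_iff₀ hZpos, mul_comm] at this
  have hen : ∀ lam : ℝ, enB Ex D Ed (off coreE fE phiC phiJ d) lam =
      (Zc : ℝ) ^ 2 * e0 (J + 1) D + Zc * (off coreE fE phiC phiJ d +
        (lam - 2 * Ed.length) * s) := by
    intro lam
    unfold enB
    rw [← hB, hJ, hZr, hs]
    ring
  have hNm := N.mott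
  have hNp := N.pert
  have hNs := N.selE
  have hbs : (D : ℝ) * ((J + 1) ^ 2 : ℕ) * tauP K J D S τ t +
      (D : ℝ) ^ 2 * (((J + 1) ^ 2 : ℕ) : ℝ) ^ 2 * ((J : ℝ) + 2) ^ K / 2 + (D : ℝ) ^ 2 =
      bS K J D S τ t := rfl
  have hJJ : JJ (g0R (J + 1) D) ≤ (D : ℝ) ^ 2 := JJ_le hn2 hD2
  have hτP : 0 ≤ tauP K J D S τ t := HV.τ'0
  have g4 : 0 ≤ (D : ℝ) * ((J + 1) ^ 2 : ℕ) * tauP K J D S τ t := by positivity
  have g5 : 0 ≤ (D : ℝ) ^ 2 * (((J + 1) ^ 2 : ℕ) : ℝ) ^ 2 * ((J : ℝ) + 2) ^ K / 2 := by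
    positivity
  rw [hJ]
  constructor
  · intro lam hχ
    rw [hen]
    exact core_upper HV hs0 hZpos hheff hk0 hO2.2 hNm hNp (fun l => (h23' l).2) hχ
  · intro lam hlam
    rw [hen]
    exact core_lower HV hs0 hZpos hheff hk0 (by positivity) hO2.1 hNm hNp hNs
      (by rw [← hbs]; linarith [sq_nonneg (D : ℝ)]) (by rw [← hbs]; linarith) N.sel hheavy
      (fun l => (h23' l).1) hlam

end

end Vale.Agent.P370.H305
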