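import Vale.Agent.P370.H305.NumDefs

/-!
P370, line Q, half (II): exact statement of the offset identity.
-/

namespace Vale.Agent.P370.H305

open Finset
open Vale.Agent.P363.Stmt (R3)
open Vale.Agent.P370.H624 (Shell Closed Filled)

noncomputable section

/-- energy of a ring orbital -/
def muR (fE : ℕ → ℝ) (J t : ℕ) (S : ℝ) : ℝ :=
  -H198.kap t + 2 * Real.pi / 3 * (t : ℝ) ^ 3 *
    (((J : ℝ) + 1) ^ 2 * (J + 2) * (2 * J + 3) / 2) - S + fE (J + 1)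

/-- the offset in terms of the potentials -/
def offR (coreE fE : ℕ → ℝ) (phiC phiJ : ℕ → ℝ → ℝ) (J m t : ℕ) (S : ℝ)
    (y : (Fin 3 → ℤ) → R3) : ℝ :=
  coreE (J + 1) + m * fE (J + 1)
    - (∑ k ∈ H198.box (t ^ 4), (phiC (J + 1) ‖y k‖ + m * phiJ (J + 1) ‖y k‖))
    - m * S
    + (1 / 2) * ∑ a ∈ range m, ∑ b ∈ (range m).erase a, Dm (J + 1) m a b

/-- **OFF** (from `FieldStmt`, `LightStmt`, `UTwStmt`) -/
def OffStmt (coreE fE : ℕ → ℝ) (phiC phiJ : ℕ → ℝ → ℝ) : Prop := ∃ K : ℕ,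
  ∀ (J m t : ℕ) (S τ : ℝ) (T : ℕ → ℕ → ℝ) (y : (Fin 3 → ℤ) → R3) (Sf : Filled J (Closed J)),
  3 ≤ J → 2 ≤ m → m ≤ J + 1 → 0 ≤ S → 0 ≤ τ → (∀ a b, |T a b| ≤ τ) → 1 ≤ t →
  GoodPos J m t S T y → (∀ a, Sf.lv a = a.1.1) →
  |coreV Sf (H198.box (t ^ 4)) y + m * muR fE J t S + JJ (g0R (J + 1) m)
      - offR coreE fE phiC phiJ J m t S y| ≤
    m * (epL K J S τ t + ((J + 1 : ℕ) : ℝ) ^ K * (m : ℝ) ^ 2 * τ *
      Real.exp (-((((J + 1 : ℕ) : ℝ) - 1) / (m : ℝ) ^ 2)))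

end

end Vale.Agent.P370.H305
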