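import Vale.Agent.P370.H305.ValInst
import Vale.Agent.P370.H305.OffDefs
import Vale.Agent.P370.H207.Heff
import Vale.Agent.P370.H253.Diag

/-!
P370, line Q, half (II): `ContCoreStmt` from the blocks.
-/

namespace Vale.Agent.P370.H305

open Finset Function
open Vale.Agent.P370.H115 Vale.Agent.P363.R.H10 Vale.Agent.P370.H890
open Vale.Agent.P363.Stmt
open Vale.Agent.P363.H849 (H1 ip)
open Vale.Agent.P370.H624 (Shell Closed Filled)
open Vale.Agent.P370.H98 (uS uT gUS gUT)
open Vale.Agent.P370.H758 (core)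

noncomputable section

theorem card_box (K : ℕ) : (H198.box K).card = (2 * K + 1) ^ 3 := by
  unfold H198.box
  rw [Fintype.card_piFinset]
  simp only [Int.card_Icc, prod_const, card_univ, Fintype.card_fin]
  congr 1
  omega

theorem exists_filled (J : ℕ) : ∃ S : Filled J (Closed J), ∀ a, S.lv a = a.1.1 := by
  obtain ⟨φ, h1, h2⟩ := H624.exists_closed J
  exact ⟨⟨φ, fun a => a.1.1, fun a => a.1.2, h1, h2, H624.card_Closed J⟩, fun _ => rfl⟩

theorem gUT_congr {n m : ℕ} {T T' : ℕ → ℕ → ℝ} (h : ∀ a b, a < b → b < m → T a b = T' a b)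
    (x : R3) : gUT n m T x = gUT n m T' x := by
  unfold gUT
  congr 1
  refine sum_congr rfl fun b hb => sum_congr rfl fun a ha => ?_
  rw [h a b (mem_range.1 ha) (mem_range.1 hb)]

/-- the hoppings are bounded -/
theorem hop_le {Δ s x Dl cnt B : ℝ} (hDl : 0 < Dl) (hDl2 : Dl ≤ 2 * Δ) (hs : 0 < s)
    (hc : cnt ≤ B - 2) (hB : 2 ≤ B) (h : |2 * x ^ 2 / Dl - cnt * s| ≤ s / (32 * B ^ 2)) :
    |x| ≤ Real.sqrt (B * Δ * s) := by
  have h1 := (abs_le.1 h).2
  have h2 : s / (32 * B ^ 2) ≤ s := by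
    rw [div_le_iff₀ (by positivity)]
    have : (1 : ℝ) ≤ 32 * B ^ 2 := by nlinarith
    nlinarith
  have h3 : 2 * x ^ 2 / Dl ≤ (B - 1) * s := by nlinarith
  rw [div_le_iff₀ hDl] at h3
  rw [← Real.sqrt_sq_eq_abs]
  apply Real.sqrt_le_sqrt
  have h4 : (B - 1) * s * Dl ≤ (B - 1) * s * (2 * Δ) :=
    mul_le_mul_of_nonneg_left hDl2 (mul_nonneg (by linarith) hs.le)
  have h5 : 0 ≤ Δ := by linarith
  nlinarith [mul_nonneg h5 hs.le]

/-- second-order energies: `heff` and the bound of the sum of the squares of the hoppings -/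
theorem heff_bounds {D : ℕ} {Ed : List (ℕ × ℕ)} (hE : ∀ e ∈ Ed, e.1 < e.2 ∧ e.2 < D)
    {t : Fin D → Fin D → ℝ} {g : Fin D → Fin D → Fin D → Fin D → ℝ} {s : ℝ} {B : ℝ}
    (hs : 0 < s) (hB : (Ed.length : ℝ) + 2 ≤ B) (hDB : (D : ℝ) ≤ B)
    (ht : ∀ a b, t a b = t b a) (hJ : ∀ a b, H600.Jm g a b = H600.Jm g b a)
    (h : ∀ a b : Fin D, a < b →
      |2 * t a b ^ 2 / H600.Del g a b - s * Ed.count ((a : ℕ), (b : ℕ))| ≤ s / (32 * B ^ 2)) :
    (∀ χ : (Fin D → Bool) → ℝ,
      |H600.heff t g χ - s * (Heis.form D Ed χ - 2 * Ed.length * Heis.nsq χ)| ≤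
        s / 32 * Heis.nsq χ) ∧
    ∑ a, ∑ b ∈ univ.erase a, 2 * (t a b ^ 2 / H600.Del g a b) ≤ 4 * B * s := by
  have hB2 : 2 ≤ B := by linarith [Nat.cast_nonneg (α := ℝ) Ed.length]
  have hε : 0 ≤ s / (32 * B ^ 2) := by positivity
  have hDε : (D : ℝ) ^ 2 * (s / (32 * B ^ 2)) ≤ s / 32 := by
    have h1 : (D : ℝ) ^ 2 ≤ B ^ 2 := by
      have := Nat.cast_nonneg (α := ℝ) D
      gcongr
    calc (D : ℝ) ^ 2 * (s / (32 * B ^ 2)) ≤ B ^ 2 * (s / (32 * B ^ 2)) :=
          mul_le_mul_of_nonneg_right h1 hε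
      _ = s / 32 := by field_simp
  constructor
  · intro χ
    have hn : 0 ≤ Heis.nsq χ := sum_nonneg fun _ _ => sq_nonneg _
    refine (H207.heffStmt D Ed hE t g s _ hε ht hJ h χ).trans ?_
    exact mul_le_mul_of_nonneg_right hDε hn
  · have hdel : ∀ a b, H600.Del g a b = H600.Del g b a := by
      intro a b
      unfold H600.Del
      rw [hJ a b]; ring
    rw [H207.sum_erase_symm (fun a b => 2 * (t a b ^ 2 / H600.Del g a b))
      (fun a b => by simp only [ht a b, hdel a b])]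
    have hform := (H207.formStmt D Ed hE).2
    have h1 : ∀ a b : Fin D, (if a < b then 2 * (2 * (t a b ^ 2 / H600.Del g a b)) else 0) ≤
        2 * s * (if a < b then (Ed.count ((a : ℕ), (b : ℕ)) : ℝ) else 0) +
          2 * (s / (32 * B ^ 2)) := by
      intro a b
      by_cases hab : a < b
      · simp only [if_pos hab]
        have := (abs_le.1 (h a b hab)).2
        have e : 2 * t a b ^ 2 / H600.Del g a b = 2 * (t a b ^ 2 / H600.Del g a b) := by ring
        rw [e] at this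
        linarith
      · simp only [if_neg hab]
        linarith
    refine (sum_le_sum fun a _ => sum_le_sum fun b _ => h1 a b).trans ?_
    simp only [sum_add_distrib, ← mul_sum, sum_const, card_univ, Fintype.card_fin,
      nsmul_eq_mul]
    rw [hform]
    have h2 : (D : ℝ) * (D * (2 * (s / (32 * B ^ 2)))) ≤ s / 16 := by
      have : (D : ℝ) * (D * (2 * (s / (32 * B ^ 2)))) =
        2 * ((D : ℝ) ^ 2 * (s / (32 * B ^ 2))) := by ring
      rw [this]; linarith
    nlinarith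

/-- `heff` is zero on the constant state -/
theorem heff_one {D : ℕ} (t : Fin D → Fin D → ℝ) (g : Fin D → Fin D → Fin D → Fin D → ℝ) :
    H600.heff t g (fun _ => 1) = 0 ∧ 0 < H600.sq (fun _ : Fin D → Bool => (1 : ℝ)) := by
  constructor
  · unfold H600.heff H600.sq H600.swapForm
    simp
  · unfold H600.sq
    simp

end

end Vale.Agent.P370.H305
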