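import Vale.Agent.P370.H305.FinalA

/-!
P370, line Q, half (II): from the matrix theorem and first-order perturbation theory to the two
bounds of `ContCoreStmt` (abstract numbers).
-/

namespace Vale.Agent.P370.H305

open Finset Function

noncomputable section

variable {D M' : ℕ} {Ed : List (ℕ × ℕ)} {e : Fin D → Fin M'} {t : Fin M' → Fin M' → ℝ}
  {g : Fin M' → Fin M' → Fin M' → Fin M' → ℝ} {h : Fin D → Fin D → ℝ}
  {g0 : Fin D → Fin D → Fin D → Fin D → ℝ} {μ ν G τ' η1 η2 γ δ κ τ : ℝ}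

theorem core_upper (HV : ValHyp e t g h g0 μ ν G τ' η1 η2 γ δ κ τ) {s k0 cV o Zc e00 GE : ℝ}
    (hs0 : 0 < s) (hZpos : 0 < Zc)
    (hheff : ∀ χ : (Fin D → Bool) → ℝ,
      |H600.heff (fun a b => if a = b then ν else h a b) g0 χ -
        s * (Heis.form D Ed χ - 2 * Ed.length * Heis.nsq χ)| ≤ s / 32 * Heis.nsq χ)
    (hk0 : ∑ a, ∑ b ∈ univ.erase a,
      2 * ((if a = b then ν else h a b) ^ 2 / H600.Del g0 a b) ≤ k0)
    (hO : cV + D * μ + JJ g0 - o ≤ s / 64) (hNm : H600.mottErr2 D δ κ τ k0 ≤ s / 64)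
    (hNp : errP D η1 η2 ≤ s / 64)
    (h23 : ∀ lam : ℝ, (∃ ψ : H600.MSt D M', H600.Anti ψ ∧ 0 < H600.nsq ψ ∧
      H600.hform t g ψ ≤ lam * H600.nsq ψ) → GE ≤ Zc ^ 2 * e00 + Zc * (cV + lam))
    {lam : ℝ} (hχ : ∃ χ : (Fin D → Bool) → ℝ, 0 < Heis.nsq χ ∧
      Heis.form D Ed χ ≤ lam * Heis.nsq χ) :
    GE ≤ Zc ^ 2 * e00 + Zc * (o + (lam + 1 / 8 - 2 * Ed.length) * s) := by
  obtain ⟨χ, hχ0, hχ⟩ := hχ
  have hsq : ∀ χ : (Fin D → Bool) → ℝ, H600.sq χ = Heis.nsq χ := fun _ => rfl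
  have h1 : H600.heff (fun a b => if a = b then ν else h a b) g0 χ ≤
      (s * (lam - 2 * Ed.length) + s / 32) * H600.sq χ := by
    have h0 := (abs_le.1 (hheff χ)).2
    rw [hsq]
    have := mul_le_mul_of_nonneg_left hχ hs0.le
    nlinarith
  obtain ⟨ψ, h2, h3, h4⟩ := val_upper HV hk0 χ (by rw [hsq]; exact hχ0) h1
  refine (h23 _ ⟨ψ, h2, h3, h4⟩).trans ?_
  have h6 : cV + (D * μ + JJ g0 + (s * (lam - 2 * Ed.length) + s / 32) +
      H600.mottErr2 D δ κ τ k0 + errP D η1 η2) ≤ o + (lam + 1 / 8 - 2 * Ed.length) * s := by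
    linarith
  have := mul_le_mul_of_nonneg_left h6 hZpos.le
  linarith

theorem core_lower (HV : ValHyp e t g h g0 μ ν G τ' η1 η2 γ δ κ τ)
    {s k0 cV o Zc e00 GE bs X : ℝ}
    (hs0 : 0 < s) (hZpos : 0 < Zc)
    (hheff : ∀ χ : (Fin D → Bool) → ℝ,
      |H600.heff (fun a b => if a = b then ν else h a b) g0 χ -
        s * (Heis.form D Ed χ - 2 * Ed.length * Heis.nsq χ)| ≤ s / 32 * Heis.nsq χ)
    (hk0 : ∑ a, ∑ b ∈ univ.erase a,
      2 * ((if a = b then ν else h a b) ^ 2 / H600.Del g0 a b) ≤ k0) (hk00 : 0 ≤ k0)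
    (hO : -(s / 64) ≤ cV + D * μ + JJ g0 - o) (hNm : H600.mottErr2 D δ κ τ k0 ≤ s / 64)
    (hNp : errP D η1 η2 ≤ s / 64) (hNs : 2 * bs ^ 2 / G ≤ s / 64)
    (hB1 : D * M' * τ' + (D : ℝ) ^ 2 * M' ^ 2 * γ / 2 ≤ bs) (hB2 : JJ g0 ≤ bs)
    (hB3 : 4 * bs ≤ G) (hX : X ≤ Zc * (s / 64))
    (h23 : ∀ lam : ℝ, (∀ ψ : H600.MSt D M', H600.Anti ψ →
      lam * H600.nsq ψ ≤ H600.hform t g ψ) → Zc ^ 2 * e00 + Zc * (cV + lam) - X ≤ GE)
    {lam : ℝ} (hlam : ∀ χ : (Fin D → Bool) → ℝ, lam * Heis.nsq χ ≤ Heis.form D Ed χ) :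
    Zc ^ 2 * e00 + Zc * (o + (lam - 1 / 8 - 2 * Ed.length) * s) ≤ GE := by
  have hsq : ∀ χ : (Fin D → Bool) → ℝ, H600.sq χ = Heis.nsq χ := fun _ => rfl
  set lamH : ℝ := s * (lam - 2 * Ed.length) - s / 32 with hlamH
  have h1 : ∀ χ : H600.SSt D, lamH * H600.sq χ ≤
      H600.heff (fun a b => if a = b then ν else h a b) g0 χ := by
    intro χ
    have h0 := (abs_le.1 (hheff χ)).1
    rw [hsq]
    have := mul_le_mul_of_nonneg_left (hlam χ) hs0.le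
    rw [hlamH]
    nlinarith
  have hlam0 : lamH ≤ 0 := by
    obtain ⟨g1, g2⟩ := heff_one (fun a b : Fin D => if a = b then ν else h a b) g0
    have g3 := h1 (fun _ => 1)
    rw [g1] at g3
    by_contra hcon
    push Not at hcon
    have := mul_pos hcon g2
    linarith
  have h2 := fun ψ hψ => val_lower HV hk0 hB1 (by linarith) hB3 h1 hk00 ψ hψ
  refine le_trans ?_ (h23 _ h2)
  have h6 : o + (lam - 1 / 8 - 2 * Ed.length) * s ≤
      cV + (D * μ + JJ g0 + lamH - H600.mottErr2 D δ κ τ k0 - errP D η1 η2 -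
      2 * bs ^ 2 / G) - s / 64 := by
    rw [hlamH]
    linarith
  have := mul_le_mul_of_nonneg_left h6 hZpos.le
  linarith

end

end Vale.Agent.P370.H305
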