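import Mathlib

/-! P370, assembly of half (II): orthonormalisation of an almost orthonormal family, with
control of the coefficients. -/

namespace Vale.Agent.P370.H305

open Matrix Finset

noncomputable section

/-- A real symmetric matrix `G` entrywise close to `1` has a matrix `A` with `A G Aᵀ = 1`, and `A`
is entrywise close to `1`. -/
theorem exists_inv_sqrt {D : ℕ} (G : Matrix (Fin D) (Fin D) ℝ) (hG : G.IsHermitian) {e : ℝ}
    (he : 0 ≤ e) (hDe : D * e ≤ 1 / 2)
    (h : ∀ i j, |G i j - (1 : Matrix (Fin D) (Fin D) ℝ) i j| ≤ e) :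
    ∃ A : Matrix (Fin D) (Fin D) ℝ, A * G * Aᵀ = 1 ∧
      ∀ i j, |A i j - (1 : Matrix (Fin D) (Fin D) ℝ) i j| ≤ D * e := by
  classical
  set U : Matrix (Fin D) (Fin D) ℝ := (hG.eigenvectorUnitary : Matrix (Fin D) (Fin D) ℝ) with hU
  set lam : Fin D → ℝ := hG.eigenvalues with hlam
  have hUU : Uᵀ * U = 1 := by
    have := Unitary.coe_star_mul_self hG.eigenvectorUnitary
    simpa [hU, star_eq_conjTranspose, conjTranspose_eq_transpose_of_trivial] using this
  have hUU' : U * Uᵀ = 1 := by
    have := Unitary.coe_mul_star_self hG.eigenvectorUnitary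
    simpa [hU, star_eq_conjTranspose, conjTranspose_eq_transpose_of_trivial] using this
  have hspec : G = U * diagonal lam * Uᵀ := by
    have := hG.spectral_theorem
    simpa [hU, hlam, Unitary.conjStarAlgAut_apply, star_eq_conjTranspose,
      conjTranspose_eq_transpose_of_trivial, Function.comp_def] using this
  -- eigenvalues are close to 1
  have hcol : ∀ k, ∑ i, U i k ^ 2 = 1 := by
    intro k
    have := congrFun (congrFun hUU k) k
    simp only [mul_apply, transpose_apply, one_apply_eq] at this
    rw [← this]; exact sum_congr rfl fun i _ => by ring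
  have hrow : ∀ i, ∑ k, U i k ^ 2 = 1 := by
    intro k
    have := congrFun (congrFun hUU' k) k
    simp only [mul_apply, transpose_apply, one_apply_eq] at this
    rw [← this]; exact sum_congr rfl fun i _ => by ring
  have hdiag : Uᵀ * (G - 1) * U = diagonal (fun k => lam k - 1) := by
    rw [mul_sub, sub_mul, mul_one, hUU]
    nth_rewrite 1 [hspec]
    have : Uᵀ * (U * diagonal lam * Uᵀ) * U = (Uᵀ * U) * diagonal lam * (Uᵀ * U) := by
      simp only [Matrix.mul_assoc]
    rw [this, hUU, Matrix.one_mul, Matrix.mul_one]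
    ext i j
    by_cases hij : i = j
    · subst hij; simp
    · simp [hij]
  have hlam1 : ∀ k, |lam k - 1| ≤ D * e := by
    intro k
    have h1 := congrFun (congrFun hdiag k) k
    rw [diagonal_apply_eq] at h1
    rw [← h1, mul_apply]
    simp only [mul_apply, transpose_apply, Matrix.sub_apply]
    calc |∑ j, (∑ i, U i k * (G i j - (1 : Matrix (Fin D) (Fin D) ℝ) i j)) * U j k|
        ≤ ∑ j, ∑ i, (e / 2) * (U i k ^ 2 + U j k ^ 2) := by
          refine (abs_sum_le_sum_abs _ _).trans (sum_le_sum fun j _ => ?_)
          rw [Finset.sum_mul]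
          refine (abs_sum_le_sum_abs _ _).trans (sum_le_sum fun i _ => ?_)
          rw [abs_mul, abs_mul]
          have h2 := h i j
          have h3 : |U i k| * |U j k| ≤ (U i k ^ 2 + U j k ^ 2) / 2 := by
            have := two_mul_le_add_sq (|U i k|) (|U j k|)
            rw [sq_abs, sq_abs] at this; linarith
          calc |U i k| * |G i j - (1 : Matrix (Fin D) (Fin D) ℝ) i j| * |U j k|
              = |G i j - (1 : Matrix (Fin D) (Fin D) ℝ) i j| * (|U i k| * |U j k|) := by ring
            _ ≤ e * ((U i k ^ 2 + U j k ^ 2) / 2) :=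
                mul_le_mul h2 h3 (by positivity) he
            _ = _ := by ring
      _ = D * e := by
          simp only [← mul_sum, sum_add_distrib, hcol, sum_const, card_univ, Fintype.card_fin,
            nsmul_eq_mul, mul_one]
          ring
  have hlampos : ∀ k, 1 / 2 ≤ lam k := by
    intro k
    have := (abs_le.1 (hlam1 k)).1
    linarith
  set r : Fin D → ℝ := fun k => (Real.sqrt (lam k))⁻¹ with hr
  have hr1 : ∀ k, |r k - 1| ≤ D * e := by
    intro k
    have h1 := hlampos k
    have h2 := hlam1 k
    refine le_trans ?_ h2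
    set t := Real.sqrt (lam k) with ht
    have ht0 : 0 < t := Real.sqrt_pos.2 (by linarith)
    have ht2 : t ^ 2 = lam k := Real.sq_sqrt (by linarith)
    have hrt : r k = t⁻¹ := rfl
    rw [hrt, ← ht2]
    have e1 : t⁻¹ - 1 = (1 - t) / t := by field_simp
    have e2 : t ^ 2 - 1 = -((1 - t) * (1 + t)) := by ring
    rw [e1, e2, abs_neg, abs_mul, abs_div, abs_of_pos ht0, abs_of_pos (by linarith : (0:ℝ) < 1 + t)]
    rw [div_le_iff₀ ht0, mul_assoc]
    refine le_mul_of_one_le_right (abs_nonneg _) ?_
    nlinarith
  refine ⟨U * diagonal r * Uᵀ, ?_, ?_⟩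
  · have hrr : ∀ k, r k * (lam k * r k) = 1 := by
      intro k
      have h1 := hlampos k
      have ht0 : 0 < Real.sqrt (lam k) := Real.sqrt_pos.2 (by linarith)
      have ht2 : Real.sqrt (lam k) ^ 2 = lam k := Real.sq_sqrt (by linarith)
      show (Real.sqrt (lam k))⁻¹ * (lam k * (Real.sqrt (lam k))⁻¹) = 1
      nth_rewrite 2 [← ht2]
      field_simp
    have hT : (U * diagonal r * Uᵀ)ᵀ = U * diagonal r * Uᵀ := by
      rw [transpose_mul, transpose_mul, transpose_transpose, diagonal_transpose, Matrix.mul_assoc]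
    rw [hT]
    nth_rewrite 1 [hspec]
    have : U * diagonal r * Uᵀ * (U * diagonal lam * Uᵀ) * (U * diagonal r * Uᵀ)
        = U * (diagonal r * ((Uᵀ * U) * diagonal lam * (Uᵀ * U)) * diagonal r) * Uᵀ := by
      simp only [Matrix.mul_assoc]
    rw [this, hUU, Matrix.one_mul, Matrix.mul_one, diagonal_mul_diagonal, diagonal_mul_diagonal]
    have e3 : (fun i => r i * lam i * r i) = fun _ => (1 : ℝ) := by
      funext k; rw [mul_assoc]; exact hrr k
    rw [e3, diagonal_one, Matrix.mul_one, hUU']
  · intro i j
    have e4 : U * diagonal r * Uᵀ - 1 = U * diagonal (fun k => r k - 1) * Uᵀ := by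
      have : diagonal (fun k => r k - 1) = diagonal r - (1 : Matrix (Fin D) (Fin D) ℝ) := by
        ext a b
        by_cases hab : a = b
        · subst hab; simp
        · simp [hab]
      rw [this, mul_sub, sub_mul, Matrix.mul_one, hUU']
    have e5 : (U * diagonal r * Uᵀ) i j - (1 : Matrix (Fin D) (Fin D) ℝ) i j
        = ∑ k, U i k * (r k - 1) * U j k := by
      rw [← Matrix.sub_apply, e4, mul_apply]
      exact sum_congr rfl fun k _ => by rw [mul_diagonal, transpose_apply]
    rw [e5]
    calc |∑ k, U i k * (r k - 1) * U j k| ≤ ∑ k, (D * e / 2) * (U i k ^ 2 + U j k ^ 2) := by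
          refine (abs_sum_le_sum_abs _ _).trans (sum_le_sum fun k _ => ?_)
          rw [abs_mul, abs_mul]
          have h2 := hr1 k
          have h3 : |U i k| * |U j k| ≤ (U i k ^ 2 + U j k ^ 2) / 2 := by
            have := two_mul_le_add_sq (|U i k|) (|U j k|)
            rw [sq_abs, sq_abs] at this; linarith
          calc |U i k| * |r k - 1| * |U j k| = |r k - 1| * (|U i k| * |U j k|) := by ring
            _ ≤ D * e * ((U i k ^ 2 + U j k ^ 2) / 2) :=
                mul_le_mul h2 h3 (by positivity) (by positivity)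
            _ = _ := by ring
      _ = D * e := by
          rw [← mul_sum, sum_add_distrib, hrow, hrow]; ring

/-- An almost orthonormal family `c` (for the symmetric bilinear form `B`) can be orthonormalised
with coefficients close to the identity. -/
theorem exists_orthonormalise {V : Type*} [AddCommGroup V] [Module ℝ V] (B : V →ₗ[ℝ] V →ₗ[ℝ] ℝ)
    (hB : ∀ x y, B x y = B y x) {D : ℕ} (c : Fin D → V) {e : ℝ} (he : 0 ≤ e)
    (hDe : D * e ≤ 1 / 2) (h : ∀ i j, |B (c i) (c j) - (if i = j then 1 else 0)| ≤ e) :
    ∃ A : Fin D → Fin D → ℝ,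
      (∀ i j, B (∑ k, A i k • c k) (∑ k, A j k • c k) = if i = j then 1 else 0) ∧
      ∀ i j, |A i j - (if i = j then 1 else 0)| ≤ D * e := by
  classical
  let G : Matrix (Fin D) (Fin D) ℝ := Matrix.of fun i j => B (c i) (c j)
  have hGa : ∀ i j, G i j = B (c i) (c j) := fun i j => rfl
  have hGh : G.IsHermitian := by
    ext i j
    rw [conjTranspose_apply, star_trivial, hGa, hGa]
    exact hB _ _
  obtain ⟨A, h1, h2⟩ := exists_inv_sqrt G hGh he hDe (by
    intro i j
    rw [one_apply]; exact h i j)
  refine ⟨A, ?_, ?_⟩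
  · intro i j
    have h3 := congrFun (congrFun h1 i) j
    rw [one_apply, mul_apply] at h3
    rw [← h3]
    simp only [map_sum, LinearMap.sum_apply, map_smul, LinearMap.smul_apply, smul_eq_mul]
    refine sum_congr rfl fun k _ => ?_
    rw [mul_apply, transpose_apply, mul_comm]
    congr 1
  · intro i j
    have := h2 i j
    rwa [one_apply] at this

end

end Vale.Agent.P370.H305
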