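import Vale.Agent.P370.H305.CompThm
import Vale.Agent.P370.H305.Steps
import Vale.Agent.P370.H253.LB

/-!
P370, line Q, half (II): the ring model satisfies the hypotheses of the Mott block.
-/

namespace Vale.Agent.P370.H305

open Finset Function
open Vale.Agent.P370.H115 Vale.Agent.P363.R.H10
open Vale.Agent.P363.Stmt (R3)

noncomputable section

/-- two-electron integrals of the rings (convention of `H600`) -/
def g0R (n m : ℕ) (i k j l : Fin m) : ℝ :=
  DD (fun x => rC n m i x * rC n m k x) (fun x => rC n m j x * rC n m l x)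

theorem Jm_g0R (n m : ℕ) (a b : Fin m) : H600.Jm (g0R n m) a b = Dm n m a b := by
  unfold H600.Jm g0R Dm rho
  congr 1 <;> funext x <;> ring

theorem ringC_pi (n : ℕ) (a : ℝ) : ringC n (a + Real.pi) = ringC n a := by
  funext x
  have h : zet (a + Real.pi) x = (starRingEnd ℂ) (zet a x) := by
    unfold zet
    rw [Real.sin_add_pi, Real.cos_add_pi]
    apply Complex.ext
    · simp
    · simp; ring
  unfold ringC
  rw [h, ← map_pow, Complex.conj_re]

/-- the charge matrix depends on the angle difference only -/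
theorem Dm_succ {n : ℕ} (hn : 2 ≤ n) (m a b : ℕ) : Dm n m (a + 1) (b + 1) = Dm n m a b := by
  have h := circ_stmt n (rang m a) (rang m b) (Real.pi / m) hn
  have e : ∀ i : ℕ, rang m (i + 1) = rang m i + Real.pi / m := by
    intro i; unfold rang; push_cast; ring
  unfold Dm rho rC
  rw [e a, e b]
  exact h

theorem Dm_per {n m : ℕ} (hm : 0 < m) (a : ℕ) : Dm n m a m = Dm n m a 0 := by
  have e : rang m m = rang m 0 + Real.pi := by
    unfold rang
    have : (m : ℝ) ≠ 0 := by positivity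
    field_simp
    simp
  have h2 : rho n m m = rho n m 0 := by
    unfold rho rC
    rw [e, ringC_pi]
  unfold Dm
  rw [h2]

/-- the row sums are constant -/
theorem row_sum {n m : ℕ} (hn : 2 ≤ n) (hm : 0 < m) (a : ℕ) :
    ∑ b ∈ range m, Dm n m (a + 1) b = ∑ b ∈ range m, Dm n m a b := by
  obtain ⟨k, rfl⟩ : ∃ k, m = k + 1 := ⟨m - 1, by omega⟩
  rw [sum_range_succ', sum_range_succ]
  congr 1
  · exact sum_congr rfl fun b _ => Dm_succ hn _ a b
  · rw [← Dm_per hm, Dm_succ hn]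

theorem row_sum0 {n m : ℕ} (hn : 2 ≤ n) (hm : 0 < m) (a : ℕ) :
    ∑ b ∈ range m, Dm n m a b = ∑ b ∈ range m, Dm n m 0 b := by
  induction a with
  | zero => rfl
  | succ a ih => rw [row_sum hn hm, ih]

/-- the common value of `D_aa/2 - ∑_b D_ab` -/
def nuR (n m : ℕ) : ℝ := Dm n m 0 0 / 2 - ∑ b ∈ range m, Dm n m 0 b

theorem nu_R {n m : ℕ} (hn : 2 ≤ n) (a : Fin m) :
    H600.Jm (g0R n m) a a / 2 - ∑ b, H600.Jm (g0R n m) a b = nuR n m := by
  have hm : 0 < m := a.pos
  rw [Jm_g0R]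
  have h1 : ∑ b, H600.Jm (g0R n m) a b = ∑ b ∈ range m, Dm n m 0 b := by
    rw [← row_sum0 hn hm a, ← Fin.sum_univ_eq_sum_range (fun b => Dm n m a b) m]
    exact sum_congr rfl fun b _ => Jm_g0R n m a b
  rw [h1, H253.Dm_diag hn m a 0, nuR]

/-- `Δ_ab` of the Mott block -/
theorem Del_R {n m : ℕ} (hn : 2 ≤ n) (a b : Fin m) : H600.Del (g0R n m) a b = Dl n m a b := by
  unfold H600.Del Dl
  rw [Jm_g0R, Jm_g0R, Jm_g0R, H253.Dm_diag hn m b a]
  ring

theorem JJ_R {n m : ℕ} :
    JJ (g0R n m) = 1 / 2 * ∑ a ∈ range m, ∑ b ∈ (range m).erase a, Dm n m a b := by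
  unfold JJ
  congr 1
  rw [← Fin.sum_univ_eq_sum_range (fun a => ∑ b ∈ (range m).erase a, Dm n m a b) m]
  refine sum_congr rfl fun a _ => ?_
  have h1 : ∑ b ∈ univ.erase a, H600.Jm (g0R n m) a b = ∑ b ∈ univ.erase a, Dm n m a b :=
    sum_congr rfl fun b _ => Jm_g0R n m a b
  rw [h1]
  have h2 := add_sum_erase univ (fun b : Fin m => Dm n m a b) (mem_univ a)
  have h3 := add_sum_erase (range m) (fun b : ℕ => Dm n m a b) (mem_range.2 a.2)
  have h4 := Fin.sum_univ_eq_sum_range (fun b => Dm n m a b) m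
  linarith

/-- hopping matrix -/
def hR {m : ℕ} (T : ℕ → ℕ → ℝ) (i j : Fin m) : ℝ := -T (min i j : Fin m) (max i j : Fin m)

/-- the hypotheses of the Mott block -/
theorem mott_R {n m : ℕ} (hm : 2 ≤ m) (hn : 65536 * m ^ 4 ≤ n) (T : ℕ → ℕ → ℝ) {τ κ : ℝ}
    (hκ : 15 * (m : ℝ) ^ 4 * (n : ℝ) ^ (-(13 / 6) : ℝ) ≤ κ) (hτ : ∀ a b, |T a b| ≤ τ)
    (hs : (m : ℝ) ^ 2 * τ ≤ 1 / 200000000 / (m * (n : ℝ) ^ 2) / 2) :
    H600.MottHyp (fun a b : Fin m => if a = b then nuR n m else hR T a b) (g0R n m)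
      (1 / 200000000 / (m * (n : ℝ) ^ 2)) κ τ := by
  have hn2 : 2 ≤ n := by
    have h2 : 1 ≤ m ^ 4 := Nat.one_le_pow _ _ (by omega)
    omega
  have hm0 : 0 < m := by omega
  refine ⟨hm0, by positivity, le_trans (by positivity) hκ, (abs_nonneg _).trans (hτ 0 0), ?_, ?_,
    ?_, ?_, ?_, ?_, hs⟩
  · intro a b
    by_cases h : a = b
    · subst h; rfl
    · simp only [if_neg h, if_neg (Ne.symm h), hR, min_comm, max_comm]
  · intro a b
    rw [Jm_g0R, Jm_g0R]
    exact H253.Dm_comm (by omega) m a b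
  · intro v
    set w : ℕ → ℝ := fun i => if h : i < m then v ⟨i, h⟩ else 0 with hw
    have h := H253.Dm_lower hm hn w
    rw [← Fin.sum_univ_eq_sum_range (fun i => w i ^ 2) m,
      ← Fin.sum_univ_eq_sum_range (fun i => ∑ j ∈ range m, Dm n m i j * w i * w j) m] at h
    have hw' : ∀ i : Fin m, w i = v i := fun i => by simp [hw]
    refine le_trans (le_of_eq ?_) (h.trans (le_of_eq ?_))
    · simp only [hw']
    · refine sum_congr rfl fun i _ => ?_
      rw [← Fin.sum_univ_eq_sum_range (fun j => Dm n m i j * w i * w j) m]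
      refine sum_congr rfl fun j _ => ?_
      rw [hw', hw', Jm_g0R]
  · intro a c b d hne
    refine le_trans ?_ hκ
    exact (small_stmt n m a c b d hn2 hm a.2 b.2 c.2 d.2).1 (by
      rintro ⟨h1, h2⟩
      exact hne ⟨Fin.ext h1, Fin.ext h2⟩)
  · intro a
    simp only [if_true]
    rw [nu_R hn2, sub_self, abs_zero]
    exact le_trans (by positivity) hκ
  · intro a b hab
    simp only [if_neg hab, hR, abs_neg]
    exact hτ _ _

end

end Vale.Agent.P370.H305
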