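import Vale.Agent.P370.H600.Mott2
import Vale.Agent.P370.H765.Sel

/-!
P370, line Q, half (II): the matrix theorem on the valence electrons (`H765.Sel` + `H600.Mott2`).
-/

namespace Vale.Agent.P370.H305

open Finset Function
open Vale.Agent.P370.H600 Vale.Agent.P370.H765

noncomputable section

variable {D M : ℕ}

theorem T1_diag (c : ℝ) (ψ : MSt D M) (a : Fin D → Fin M) (s : Fin D → Bool) :
    T1 (fun a b => if a = b then c else 0) ψ a s = D * c * ψ a s := by
  have h : ∀ i : Fin D, ∑ b, (if a i = b then c else 0) * ψ (update a i b) s = c * ψ a s := by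
    intro i
    rw [Finset.sum_eq_single (a i)]
    · simp
    · intro b _ hb
      rw [if_neg (Ne.symm hb), zero_mul]
    · simp
  simp only [T1, h, sum_const, card_univ, Fintype.card_fin, nsmul_eq_mul]
  ring

theorem ip_T1_diag (c : ℝ) (ψ φ : MSt D M) :
    H600.ip φ (T1 (fun a b => if a = b then c else 0) ψ) = D * c * H600.ip φ ψ := by
  simp only [H600.ip, T1_diag, mul_sum]
  refine sum_congr rfl fun a _ => sum_congr rfl fun s _ => by ring

/-- a scalar in the one-body matrix -/
theorem hform_shift (c : ℝ) (t : Fin M → Fin M → ℝ) (g : Fin M → Fin M → Fin M → Fin M → ℝ)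
    (ψ : MSt D M) :
    hform (fun a b => t a b + if a = b then c else 0) g ψ = hform t g ψ + D * c * nsq ψ := by
  have h := hform_add_mat (fun a b : Fin M => if a = b then c else 0) t g ψ
  rw [ip_T1_diag] at h
  have e : ((fun a b : Fin M => if a = b then c else 0) + t) =
      fun a b => t a b + if a = b then c else 0 := by
    funext a b; simp [add_comm]
  rw [e] at h
  rw [h, nsq]; ring

/-- Hypotheses of the matrix theorem: `e` = the ring orbitals, `μ` = their energy, `h` = hoppings,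
`g0` = their two-electron integrals. -/
structure ValHyp (e : Fin D → Fin M) (t : Fin M → Fin M → ℝ)
    (g : Fin M → Fin M → Fin M → Fin M → ℝ) (h : Fin D → Fin D → ℝ)
    (g0 : Fin D → Fin D → Fin D → Fin D → ℝ) (μ ν G τ' η1 η2 γ δ κ τ : ℝ) : Prop where
  inj : Injective e
  Gpos : 0 < G
  τ'0 : 0 ≤ τ'
  η10 : 0 ≤ η1
  η20 : 0 ≤ η2
  γ0 : 0 ≤ γ
  compl : ∀ v : Fin M → ℝ, (∀ i, v (e i) = 0) →
    (μ + G) * ∑ a, v a ^ 2 ≤ ∑ a, ∑ b, t a b * v a * v b
  cross : ∀ i b, b ∉ Set.range e → |t (e i) b| ≤ τ' ∧ |t b (e i)| ≤ τ'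
  ring : ∀ i j, |t (e i) (e j) - (if i = j then μ else h i j)| ≤ η1
  ring' : ∀ i j, |t (e i) (e j) - (if i = j then μ else 0)| ≤ τ'
  two : ∀ i k j l, |g (e i) (e k) (e j) (e l) - g0 i k j l| ≤ η2
  gb : ∀ a c b d, |g a c b d| ≤ γ
  mott : MottHyp (fun a b => if a = b then ν else h a b) g0 δ κ τ
  nu : ∀ a, Jm g0 a a / 2 - ∑ b, Jm g0 a b = ν

/-- Coulomb energy of one electron per ring -/
def JJ (g0 : Fin D → Fin D → Fin D → Fin D → ℝ) : ℝ := 1 / 2 * ∑ a, ∑ b ∈ univ.erase a, Jm g0 a b

/-- perturbation error -/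
def errP (D : ℕ) (η1 η2 : ℝ) : ℝ := D * D * η1 + (D : ℝ) ^ 2 * D ^ 2 * η2 / 2

theorem JJ_eq {g0 : Fin D → Fin D → Fin D → Fin D → ℝ} {ν : ℝ}
    (hν : ∀ a, Jm g0 a a / 2 - ∑ b, Jm g0 a b = ν) : E0 g0 - D * ν = JJ g0 := by
  have h1 : (D : ℝ) * ν = ∑ a, (Jm g0 a a / 2 - ∑ b, Jm g0 a b) := by
    rw [Finset.sum_congr rfl fun a _ => hν a]; simp
  rw [h1, E0, JJ, mul_sum, mul_sum, ← sum_sub_distrib]
  refine sum_congr rfl fun a _ => ?_
  rw [← Finset.add_sum_erase univ (fun b => Jm g0 a b) (mem_univ a)]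
  ring

section
variable {e : Fin D → Fin M} {t : Fin M → Fin M → ℝ}
  {g : Fin M → Fin M → Fin M → Fin M → ℝ} {h : Fin D → Fin D → ℝ}
  {g0 : Fin D → Fin D → Fin D → Fin D → ℝ} {μ ν G τ' η1 η2 γ δ κ τ : ℝ}

/-- ring block against the ideal model -/
theorem ValHyp.block (H : ValHyp e t g h g0 μ ν G τ' η1 η2 γ δ κ τ) (c : ℝ) (φ : MSt D D) :
    |hform (fun a b => t (e a) (e b) + if a = b then c else 0)
        (fun a b c d => g (e a) (e b) (e c) (e d)) φ
      - (hform (fun a b => if a = b then ν else h a b) g0 φ + D * (μ - ν + c) * nsq φ)| ≤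
      errP D η1 η2 * nsq φ := by
  rw [← hform_shift]
  refine (hform_perturb (n := D) _ _ _ _ H.η10 H.η20 ?_ ?_ φ).trans (le_of_eq ?_)
  · intro a b
    have := H.ring a b
    by_cases hab : a = b
    · subst hab
      simp only [if_true] at this ⊢
      rw [show t (e a) (e a) + c - (ν + (μ - ν + c)) = t (e a) (e a) - μ by ring]
      exact this
    · simp only [if_neg hab, add_zero] at this ⊢
      exact this
  · exact H.two
  · rw [errP]

/-- **lower bound** -/
theorem val_lower (H : ValHyp e t g h g0 μ ν G τ' η1 η2 γ δ κ τ) {lam k0 B : ℝ}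
    (hk0 : ∑ a, ∑ b ∈ univ.erase a,
      2 * ((if a = b then ν else h a b) ^ 2 / Del g0 a b) ≤ k0)
    (hB1 : D * M * τ' + (D : ℝ) ^ 2 * M ^ 2 * γ / 2 ≤ B) (hB2 : JJ g0 + lam ≤ B)
    (hB3 : 4 * B ≤ G)
    (hlam : ∀ χ : SSt D, lam * H600.sq χ ≤ heff (fun a b => if a = b then ν else h a b) g0 χ)
    (hk00 : 0 ≤ k0) (ψ : MSt D M) (hψ : Anti ψ) :
    (D * μ + JJ g0 + lam - mottErr2 D δ κ τ k0 - errP D η1 η2 - 2 * B ^ 2 / G) * nsq ψ ≤
      hform t g ψ := by
  classical
  have hD := H.mott.dpos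
  have hτ0 := H.mott.tpos
  have hκ0 := H.mott.kpos
  have hme : 0 ≤ mottErr2 D δ κ τ k0 := by unfold mottErr2; positivity
  have hpe : 0 ≤ errP D η1 η2 := by
    have := H.η10; have := H.η20; unfold errP; positivity
  set tc : Fin M → Fin M → ℝ := fun a b =>
    if a ∉ Set.range e ∧ b ∉ Set.range e then t a b - (if a = b then μ else 0) else 0 with htc
  set t1 : Fin M → Fin M → ℝ := fun a b =>
    if a ∉ Set.range e ∧ b ∉ Set.range e then 0 else t a b - (if a = b then μ else 0) with ht1
  have hsum : hform t g ψ = hform (tc + t1) g ψ + D * μ * nsq ψ := by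
    rw [← hform_shift]
    congr 1
    funext a b
    simp only [htc, ht1, Pi.add_apply]
    split_ifs <;> ring
  have key := sel_lower (n := D) H.inj tc t1 g (G := G) (B := B)
    (lam := JJ g0 + lam - mottErr2 D δ κ τ k0 - errP D η1 η2) H.Gpos hB3 (by linarith)
    (fun v => by
      set v' : Fin M → ℝ := fun a => if a ∈ Set.range e then 0 else v a with hv'
      have h1 := H.compl v' (fun i => by simp [hv'])
      have h2 : ∑ b ∈ univ.filter (fun b => b ∉ Set.range e), v b ^ 2 = ∑ a, v' a ^ 2 := by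
        rw [sum_filter]
        refine sum_congr rfl fun a _ => ?_
        simp only [hv']
        split_ifs <;> simp_all
      have h3 : ∑ a, ∑ b, tc a b * v a * v b =
          (∑ a, ∑ b, t a b * v' a * v' b) - μ * ∑ a, v' a ^ 2 := by
        rw [mul_sum, ← sum_sub_distrib]
        refine sum_congr rfl fun a _ => ?_
        have h4 : μ * v' a ^ 2 = ∑ b, (if a = b then μ else 0) * v' a * v' b := by
          rw [Finset.sum_eq_single a]
          · simp; ring
          · intro b _ hb; rw [if_neg (Ne.symm hb)]; ring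
          · simp
        rw [h4, ← sum_sub_distrib]
        refine sum_congr rfl fun b _ => ?_
        simp only [htc, hv']
        by_cases ha : a ∈ Set.range e
        · simp [ha]
        · by_cases hb : b ∈ Set.range e
          · simp [ha, hb]
          · simp only [ha, hb, not_false_eq_true, and_self, if_true, if_false]
            ring
      rw [h2, h3]
      linarith)
    (fun ψ φ => by
      refine (bform_bound (n := D) t1 g H.τ'0 H.γ0 ?_ H.gb ψ φ).trans ?_
      · intro a b
        simp only [ht1]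
        by_cases ha : a ∈ Set.range e
        · obtain ⟨i, rfl⟩ := ha
          rw [if_neg (by simp)]
          by_cases hb : b ∈ Set.range e
          · obtain ⟨j, rfl⟩ := hb
            have := H.ring' i j
            simpa [H.inj.eq_iff] using this
          · have hab : e i ≠ b := fun hh => hb ⟨i, hh⟩
            rw [if_neg hab, sub_zero]
            exact (H.cross i b hb).1
        · by_cases hb : b ∈ Set.range e
          · obtain ⟨j, rfl⟩ := hb
            rw [if_neg (by simp)]
            have hab : a ≠ e j := fun hh => ha ⟨j, hh.symm⟩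
            rw [if_neg hab, sub_zero]
            exact (H.cross j a ha).2
          · rw [if_pos ⟨ha, hb⟩, abs_zero]; exact H.τ'0
      · exact mul_le_mul_of_nonneg_right hB1 (by positivity))
    (fun φ hφ => by
      have h1 := mott_lower2 D _ g0 δ κ τ lam k0 H.mott hk0 hlam φ hφ
      have h2 := (abs_le.1 (H.block (-μ) φ)).1
      have h3 : (fun a b : Fin D => t1 (e a) (e b)) =
          fun a b => t (e a) (e b) + if a = b then -μ else 0 := by
        funext a b
        simp only [ht1]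
        rw [if_neg (by simp)]
        by_cases hab : a = b
        · subst hab; simp; ring
        · have : e a ≠ e b := fun hh => hab (H.inj hh)
          simp [hab, this]
      rw [h3]
      have h4 := JJ_eq H.nu
      have h5 := H600.nsq_nonneg φ
      have h6 : (JJ g0 + lam - mottErr2 D δ κ τ k0 - errP D η1 η2) * nsq φ =
          (E0 g0 + lam - mottErr2 D δ κ τ k0) * nsq φ + D * (μ - ν + -μ) * nsq φ
            - errP D η1 η2 * nsq φ := by
        rw [← h4]; ring
      rw [h6]
      linarith) ψ hψ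
  rw [hsum]
  have h7 := H600.nsq_nonneg ψ
  nlinarith

/-- **upper bound** -/
theorem val_upper (H : ValHyp e t g h g0 μ ν G τ' η1 η2 γ δ κ τ) {lam k0 : ℝ}
    (hk0 : ∑ a, ∑ b ∈ univ.erase a,
      2 * ((if a = b then ν else h a b) ^ 2 / Del g0 a b) ≤ k0)
    (χ : SSt D) (hχ0 : 0 < H600.sq χ)
    (hχ : heff (fun a b => if a = b then ν else h a b) g0 χ ≤ lam * H600.sq χ) :
    ∃ ψ : MSt D M, Anti ψ ∧ 0 < nsq ψ ∧ hform t g ψ ≤
      (D * μ + JJ g0 + lam + mottErr2 D δ κ τ k0 + errP D η1 η2) * nsq ψ := by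
  obtain ⟨φ, hφ, hφ0, h1⟩ := mott_upper2 D _ g0 δ κ τ lam k0 H.mott hk0 χ hχ0 hχ
  refine ⟨ext e φ, anti_ext hφ, by rw [nsq_ext H.inj]; exact hφ0, ?_⟩
  rw [hform_ext H.inj, nsq_ext H.inj]
  have h2 := (abs_le.1 (H.block 0 φ)).2
  simp only [ite_self, add_zero] at h2
  have h4 := JJ_eq H.nu
  rw [show (D * μ + JJ g0 + lam + mottErr2 D δ κ τ k0 + errP D η1 η2) * nsq φ =
    (E0 g0 + lam + mottErr2 D δ κ τ k0) * nsq φ + D * (μ - ν) * nsq φ
      + errP D η1 η2 * nsq φ by rw [← h4]; ring]
  linarith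

end

end

end Vale.Agent.P370.H305
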