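import Vale.Agent.P370.H305.NumDefs

/-!
P370, line Q, half (II): the matrix theorem applies to the valence shell.
-/

namespace Vale.Agent.P370.H305

open Finset Function
open Vale.Agent.P370.H115 Vale.Agent.P363.R.H10 Vale.Agent.P370.H890
open Vale.Agent.P363.Stmt (R3)
open Vale.Agent.P363.H849 (H1 ip)
open Vale.Agent.P370.H624 (Shell Closed Filled)
open Vale.Agent.P370.H758 (core)

noncomputable section

theorem AbsIn.mono {V : Type*} [AddCommGroup V] [Module ℝ V] {m : ℕ}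
    {b T m2 uT cr r : V →ₗ[ℝ] V →ₗ[ℝ] ℝ} {C R : Fin m → V} {h : Fin m → Fin m → ℝ}
    {κL P s S fE Kc Ku εL mix η Kc' Ku' εL' : ℝ}
    (H : AbsIn b T m2 uT cr r C R h κL P s S fE Kc Ku εL mix η)
    (h1 : Kc ≤ Kc') (h2 : Ku ≤ Ku') (h3 : εL ≤ εL') :
    AbsIn b T m2 uT cr r C R h κL P s S fE Kc' Ku' εL' mix η := by
  have hn : ∀ x y, 0 ≤ nb b x * nb b y := fun x y => mul_nonneg (nb_nonneg b x) (nb_nonneg b y)
  exact { H with
    crb := fun x y => (H.crb x y).trans (mul_le_mul_of_nonneg_right h1 (hn x y))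
    uTb := fun x y => (H.uTb x y).trans (mul_le_mul_of_nonneg_right h2 (hn x y))
    rb := fun x y => (H.rb x y).trans (mul_le_mul_of_nonneg_right h3 (hn x y))
    Kc0 := H.Kc0.trans h1
    Ku0 := H.Ku0.trans h2
    εL0 := H.εL0.trans h3 }

theorem epL_nonneg (K J : ℕ) (S τ : ℝ) (t : ℕ) : 0 ≤ epL K J S τ t := by
  unfold epL; positivity

theorem epO_nonneg (J m : ℕ) : 0 ≤ epO J m := by unfold epO etaR; positivity

theorem eta1_nonneg {K J m : ℕ} {S τ : ℝ} {t : ℕ} (hS : 0 ≤ S) (hτ : 0 ≤ τ) :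
    0 ≤ eta1 K J m S τ t := by
  have h1 := epL_nonneg K J S τ t
  have h2 := epO_nonneg J m
  have h3 : 0 ≤ etaR J m := by unfold etaR; positivity
  have h4 : 0 ≤ mixR J m τ := by unfold mixR; positivity
  unfold eta1
  positivity

/-- **The valence electrons**: orthonormal basis of the shell and hypotheses of the matrix theorem -/
theorem exists_val {K p J m t Zc B : ℕ} {S τ s : ℝ} {T : ℕ → ℕ → ℝ} {y : (Fin 3 → ℤ) → R3}
    {Sf : Filled J (Closed J)} {κL P sJ f : ℝ}
    {Tb m2 uTb cr r : Shell J →ₗ[ℝ] Shell J →ₗ[ℝ] ℝ} {C R : Fin m → Shell J}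
    (H : AbsIn (ipS J) Tb m2 uTb cr r C R (hR T) κL P sJ S f (((J : ℝ) + 2) ^ K)
      (((J : ℝ) + 2) ^ K * τ) (epL K J S τ t) (mixR J m τ) (etaR J m))
    (hTb : ∀ f g : Shell J, Tb f g =
      lightF (H198.box (t ^ 4)) y (f : H1).1.1 (g : H1).1.1 + core Sf (f : H1).1.1 (g : H1).1.1)
    (hG : ∀ (e0 : Fin m → Shell J) (A : Fin m → Fin m → ℝ) (ε : ℝ), OrthOut (ipS J) C e0 A ε →
      (∀ i k j l, |DD (fun x => (e0 i : H1).1.1 x * (e0 k : H1).1.1 x)
        (fun x => (e0 j : H1).1.1 x * (e0 l : H1).1.1 x) - g0R (J + 1) m i k j l| ≤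
          9 * ε * ((J : ℝ) + 2) ^ K) ∧
      ∀ (M : ℕ) (φ : Fin M → H1), (∀ a, φ a ∈ Shell J) → (∀ a, ip (φ a) (φ a) = 1) →
        ∀ a c b d, |gV φ a c b d| ≤ ((J : ℝ) + 2) ^ K)
    (N : Nums K p J m t Zc B S τ s) (hm : 2 ≤ m) (hT : ∀ a b, |T a b| ≤ τ)
    (hGpos : 0 < gapS K J S τ t) :
    ∃ (φ : Fin ((J + 1) ^ 2) → H1) (e : Fin m → Fin ((J + 1) ^ 2)),
      (∀ a, φ a ∈ Shell J) ∧ (∀ a b, ip (φ a) (φ b) = if a = b then 1 else 0) ∧
      ValHyp e (tV Sf (H198.box (t ^ 4)) y φ) (gV φ) (hR T) (g0R (J + 1) m)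
        (-κL + P * sJ - S + f) (nuR (J + 1) m) (gapS K J S τ t) (tauP K J m S τ t)
        (eta1 K J m S τ t) (9 * epO J m * ((J : ℝ) + 2) ^ K) (((J : ℝ) + 2) ^ K)
        (delR J m) (kapR J m) τ := by
  have hτ0 : 0 ≤ τ := (abs_nonneg _).trans (hT 0 0)
  obtain ⟨e0, A, ho⟩ := exists_orth H.psd C H.η0 H.ov N.eta
  have hε : (8 * (m : ℝ) * etaR J m) = epO J m := rfl
  rw [hε] at ho
  have hη1 : etaR J m ≤ 1 := by
    have h1 := N.eta
    have h2 : (1 : ℝ) ≤ m := by exact_mod_cast (by omega : 1 ≤ m)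
    have h3 := H.η0
    nlinarith
  have hcard : m ≤ (J + 1) ^ 2 := N.mJ.trans (Nat.le_self_pow (by norm_num) _)
  -- the basis
  obtain ⟨w, hw1, hw2, hw3⟩ := H624.exists_shell_basis J (ι := Fin ((J + 1) ^ 2)) (by simp)
    (fun a => if h : a.1 < m then (e0 ⟨a.1, h⟩ : H1) else 0) {a | a.1 < m}
    (fun i hi => by
      have hi' : i.1 < m := hi
      simp only [dif_pos hi']
      exact (e0 _).2)
    (fun i hi k hk => by
      have hi' : i.1 < m := hi
      have hk' : k.1 < m := hk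
      simp only [dif_pos hi', dif_pos hk']
      have := ho.on ⟨i.1, hi'⟩ ⟨k.1, hk'⟩
      rw [ipS_apply] at this
      rw [this]
      simp [Fin.ext_iff])
  set e : Fin m → Fin ((J + 1) ^ 2) := Fin.castLE hcard with he
  have hinj : Injective e := Fin.castLE_injective hcard
  set φ' : Fin ((J + 1) ^ 2) → Shell J := fun a => ⟨w a, hw1 a⟩ with hφ'
  have hon : ∀ a c, ipS J (φ' a) (φ' c) = if a = c then 1 else 0 := fun a c => hw2 a c
  have hφe : ∀ i, φ' (e i) = e0 i := fun i => by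
    apply Subtype.ext
    have h1 : (e i).1 < m := i.2
    have h2 := hw3 (e i) h1
    rw [dif_pos h1] at h2
    exact h2
  have htV : ∀ a c, tV Sf (H198.box (t ^ 4)) y w a c = Tb (φ' a) (φ' c) := fun a c => by
    rw [hTb]; rfl
  have hn1 : ∀ a, ip (w a) (w a) = 1 := fun a => by rw [hw2]; simp
  obtain ⟨hG1, hG2⟩ := hG e0 A _ ho
  have hS := H.S0
  have e1 := eta1_nonneg (K := K) (J := J) (m := m) (t := t) hS hτ0
  have e2 := epL_nonneg K J S τ t
  have e3 := epO_nonneg J m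
  have hring := H.ring ho hφe hη1
  have hgap : S - 2 * ((J : ℝ) + 2) ^ K - ((J : ℝ) + 2) ^ K * τ - epL K J S τ t =
    gapS K J S τ t := rfl
  have heta : S * (2 * (2 * epO J m + etaR J m) + m * (2 * epO J m + etaR J m) ^ 2) +
      (mixR J m τ + 3 * epO J m * (((J : ℝ) + 2) ^ K * τ)) + epL K J S τ t =
      eta1 K J m S τ t := rfl
  rw [heta] at hring
  refine ⟨w, e, hw1, hw2, ?_⟩
  refine
    { inj := hinj
      Gpos := hGpos
      τ'0 := by unfold tauP; positivity
      η10 := e1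
      η20 := by positivity
      γ0 := by positivity
      compl := fun v hv => ?_
      cross := fun i c hc => ?_
      ring := fun i j => ?_
      ring' := fun i j => ?_
      two := fun i k j l => ?_
      gb := hG2 _ w hw1 hn1
      mott := mott_R hm N.nbig T le_rfl hT N.small_t
      nu := nu_R (by have := N.J3; omega) }
  · have := H.compl ho hon hφe v hv
    rw [hgap] at this
    refine this.trans (le_of_eq ?_)
    refine sum_congr rfl fun a _ => sum_congr rfl fun c _ => ?_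
    rw [htV]
  · have h1 := H.cross ho hon hφe i c hc
    rw [htV, htV]
    have h2 : ((J : ℝ) + 2) ^ K * τ + epL K J S τ t ≤ tauP K J m S τ t := by
      unfold tauP; linarith
    exact ⟨h1.1.trans h2, h1.2.trans h2⟩
  · rw [htV]; exact hring i j
  · rw [htV]
    have h1 := hring i j
    have h2 : 0 ≤ ((J : ℝ) + 2) ^ K * τ := by positivity
    by_cases hij : i = j
    · simp only [if_pos hij] at h1 ⊢
      unfold tauP
      linarith
    · simp only [if_neg hij, sub_zero] at h1 ⊢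
      have h3 : |hR T i j| ≤ τ := by unfold hR; rw [abs_neg]; exact hT _ _
      have h4 := abs_add_le (Tb (φ' (e i)) (φ' (e j)) - hR T i j) (hR T i j)
      rw [sub_add_cancel] at h4
      unfold tauP
      linarith
  · have hwe : ∀ i, w (e i) = (e0 i : H1) := fun i => congrArg Subtype.val (hφe i)
    unfold gV
    simp only [hwe]
    exact hG1 i k j l

end

end Vale.Agent.P370.H305
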